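import Vale.Agent.P277Z.Spec

/-!
# P277Z, block LOC: generic points, values of meromorphic germs
-/

set_option linter.all false

open scoped Manifold ContDiff Topology
open Set Filter
open Vale.Agent.P272.K (Cm Chart At cHess)
open Vale.Agent.P297 (Place)

noncomputable section

namespace Vale.Agent.P277Z

namespace Lo

section gen

variable {W : Type} [TopologicalSpace W] {s : Set W} {x : W} {p : W → Prop}

theorem gen_iff : (∀ᶠ y in gen s, p y) ↔ ∀ x ∈ s, ∀ᶠ y in gen {x}, p y := by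
  refine ⟨fun h x hx => h.filter_mono (gen_le_of (by simpa using hx)), fun h => ?_⟩
  refine ⟨interior (closure (interior {y | p y})), isOpen_interior, fun x hx => ?_, interior_subset⟩
  obtain ⟨U, h1, h2, h3⟩ := h x hx
  exact interior_maximal h3 h1 (h2 rfl)

theorem gen_pt : (∀ᶠ y in gen {x}, p y) ↔ ∀ᶠ y in 𝓝 x, y ∈ closure (interior {y | p y}) :=
  ⟨fun ⟨U, h1, h2, h3⟩ => mem_of_superset (h1.mem_nhds (h2 rfl)) h3, fun h =>
    ⟨_, isOpen_interior, by simpa using mem_interior_iff_mem_nhds.2 h, interior_subset⟩⟩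

theorem gen_freq (h : ∀ᶠ y in gen {x}, p y) : ∃ᶠ y in 𝓝 x, ∀ᶠ z in 𝓝 y, p z :=
  (mem_closure_iff_frequently.1 (gen_pt.1 h).self_of_nhds).mono fun _ =>
    mem_interior_iff_mem_nhds.1

theorem gen_freq' (h : ∀ᶠ y in gen {x}, p y) : ∃ᶠ y in 𝓝 x, p y :=
  (gen_freq h).mono fun _ => Eventually.self_of_nhds

instance (x : W) : (gen {x}).NeBot := ⟨fun h => by
  have : ∀ᶠ y in gen {x}, False := by rw [h]; exact eventually_bot
  exact (gen_freq' this).exists.elim fun _ h => h⟩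

theorem gen_interior (h : ∀ᶠ y in gen s, p y) : ∀ᶠ y in gen s, ∀ᶠ z in 𝓝 y, p z := by
  obtain ⟨U, h1, h2, h3⟩ := h
  refine ⟨U, h1, h2, h3.trans (closure_mono ?_)⟩
  exact interior_maximal (fun y hy => mem_interior_iff_mem_nhds.1 hy) isOpen_interior

theorem gen_of_nhdsSet (h : ∀ᶠ y in 𝓝ˢ s, p y) : ∀ᶠ y in gen s, p y :=
  gen_iff.2 fun _ hx => gen_of_nhds (h.filter_mono (nhds_le_nhdsSet hx))

theorem gen_nhdsSet (h : ∀ᶠ y in gen s, p y) : ∀ᶠ y in 𝓝ˢ s, ∀ᶠ z in gen {y}, p z :=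
  eventually_nhdsSet_iff_forall.2 fun x hx => gen_near (gen_iff.1 h x hx)

theorem gen_of_near (h : ∀ᶠ y in 𝓝 x, ∀ᶠ z in gen {y}, p z) : ∀ᶠ y in gen {x}, p y :=
  h.self_of_nhds

/-- an open condition which holds frequently near all nearby points holds generically -/
theorem gen_of_freq (h : ∀ᶠ y in 𝓝 x, ∃ᶠ z in 𝓝 y, ∀ᶠ w in 𝓝 z, p w) : ∀ᶠ y in gen {x}, p y :=
  gen_pt.2 (h.mono fun _ hy => mem_closure_iff_frequently.2
    (hy.mono fun _ => mem_interior_iff_mem_nhds.2))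

theorem eq_of_gen {a b : W → ℂ} (ha : ContinuousAt a x) (hb : ContinuousAt b x)
    (h : ∀ᶠ y in gen {x}, a y = b y) : a x = b x :=
  tendsto_nhds_unique_of_frequently_eq ha hb (gen_freq' h)

end gen

section hol

variable {n : ℕ} {W : Type} [TopologicalSpace W] [ChartedSpace (Cm n) W] {a b : W → ℂ} {x : W}

theorem at_chartAt (x : W) : At (chartAt (Cm n) x) x := ⟨chart_mem_atlas _ _, mem_chart_source _ _⟩

theorem tendsto_symm {e : Chart n W} (he : At e x) : Tendsto e.symm (𝓝 (e x)) (𝓝 x) := by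
  have := e.continuousAt_symm (e.map_source he.2)
  rwa [ContinuousAt, e.left_inv he.2] at this

theorem ev_chart {e : Chart n W} (he : At e x) {p : W → Prop} :
    (∀ᶠ z in 𝓝 (e x), p (e.symm z)) ↔ ∀ᶠ y in 𝓝 x, p y := by
  refine ⟨fun h => ?_, fun h => (tendsto_symm he).eventually h⟩
  filter_upwards [(e.continuousAt he.2).eventually h, e.open_source.mem_nhds he.2] with y h1 h2
  rwa [e.left_inv h2] at h1

theorem hol_const (c : ℂ) : Hol n (fun _ : W => c) x := fun _ _ => analyticAt_const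

theorem hol_add (ha : Hol n a x) (hb : Hol n b x) : Hol n (fun y => a y + b y) x :=
  fun e he => (ha e he).add (hb e he)

theorem hol_sub (ha : Hol n a x) (hb : Hol n b x) : Hol n (fun y => a y - b y) x :=
  fun e he => (ha e he).sub (hb e he)

theorem hol_neg (ha : Hol n a x) : Hol n (fun y => -a y) x := fun e he => (ha e he).neg

theorem hol_mul (ha : Hol n a x) (hb : Hol n b x) : Hol n (fun y => a y * b y) x :=
  fun e he => (ha e he).mul (hb e he)

theorem hol_pow (ha : Hol n a x) (k : ℕ) : Hol n (fun y => a y ^ k) x :=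
  fun e he => (ha e he).fun_pow k

theorem hol_inv (ha : Hol n a x) (h : a x ≠ 0) : Hol n (fun y => (a y)⁻¹) x :=
  fun e he => (ha e he).fun_inv (by rwa [e.left_inv he.2])

theorem hol_div (ha : Hol n a x) (hb : Hol n b x) (h : b x ≠ 0) : Hol n (fun y => a y / b y) x := by
  simpa only [div_eq_mul_inv] using hol_mul ha (hol_inv hb h)

theorem hol_sum {ι : Type*} (s : Finset ι) {a : ι → W → ℂ} (ha : ∀ i ∈ s, Hol n (a i) x) :
    Hol n (fun y => ∑ i ∈ s, a i y) x :=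
  fun e he => Finset.analyticAt_fun_sum s fun i hi => ha i hi e he

theorem hol_prod {ι : Type*} (s : Finset ι) {a : ι → W → ℂ} (ha : ∀ i ∈ s, Hol n (a i) x) :
    Hol n (fun y => ∏ i ∈ s, a i y) x :=
  fun e he => Finset.analyticAt_fun_prod s fun i hi => ha i hi e he

theorem hol_cont (ha : Hol n a x) : ContinuousAt a x := by
  have he := at_chartAt (n := n) x
  refine ((ha _ he).continuousAt.comp ((chartAt (Cm n) x).continuousAt he.2)).congr ?_
  filter_upwards [(chartAt (Cm n) x).open_source.mem_nhds he.2] with y hy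
  simp [(chartAt (Cm n) x).left_inv hy]

theorem hol_ne (ha : Hol n a x) (h : a x ≠ 0) : ∀ᶠ y in 𝓝 x, a y ≠ 0 :=
  (hol_cont ha).eventually_ne h

variable [IsManifold 𝓘(ℂ, Cm n) ω W]

theorem hol_eq_of_gen (ha : Hol n a x) (hb : Hol n b x) (h : ∀ᶠ y in gen {x}, a y = b y) :
    ∀ᶠ y in 𝓝 x, a y = b y := by
  filter_upwards [ha.near, hb.near, gen_near h] with y h1 h2 h3
    using eq_of_gen (hol_cont h1) (hol_cont h2) h3

/-- the identity theorem -/
theorem hol_ident (ha : Hol n a x) :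
    (∀ᶠ y in 𝓝 x, a y = 0) ∨ ∀ᶠ y in 𝓝 x, ¬∀ᶠ z in 𝓝 y, a z = 0 := by
  have he := at_chartAt (n := n) x
  set e := chartAt (Cm n) x
  obtain ⟨r, hr, h⟩ := Metric.eventually_nhds_iff_ball.1 ((ha e he).eventually_analyticAt)
  refine or_iff_not_imp_left.2 fun h0 => ?_
  filter_upwards [(e.continuousAt he.2).eventually (Metric.ball_mem_nhds _ hr),
    e.open_source.mem_nhds he.2] with y h1 h2 h3
  refine h0 ((ev_chart he).1 ?_)
  filter_upwards [Metric.ball_mem_nhds _ hr] with z hz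
  exact AnalyticOnNhd.eqOn_zero_of_preconnected_of_eventuallyEq_zero h
    (convex_ball _ _).isPreconnected h1 ((ev_chart ⟨he.1, h2⟩).2 h3) hz

theorem hol_gen_ne (ha : Hol n a x) (h : ¬∀ᶠ y in 𝓝 x, a y = 0) : ∀ᶠ y in gen {x}, a y ≠ 0 := by
  refine gen_of_freq ?_
  filter_upwards [(hol_ident ha).resolve_left h, ha.near.eventually_nhds] with y h1 h2
  exact ((not_eventually.1 h1).and_eventually h2).mono fun z hz => hol_ne hz.2 hz.1

theorem not_zero_of_gen (h : ∀ᶠ y in gen {x}, a y ≠ 0) : ¬∀ᶠ y in 𝓝 x, a y = 0 := fun h' =>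
  ((gen_freq' h).and_eventually h').exists.elim fun _ k => k.1 k.2

theorem hol_cancel {c : W → ℂ} (ha : Hol n a x) (hb : Hol n b x) (hc : Hol n c x)
    (h0 : ¬∀ᶠ y in 𝓝 x, c y = 0) (h : ∀ᶠ y in gen {x}, a y * c y = b y * c y) :
    ∀ᶠ y in 𝓝 x, a y = b y :=
  hol_eq_of_gen ha hb ((h.and (hol_gen_ne hc h0)).mono fun _ k => mul_right_cancel₀ k.2 k.1)

theorem mer_of_hol (ha : Hol n a x) : Mer n a x :=
  ⟨a, fun _ => 1, ha, hol_const 1, fun h => one_ne_zero h.self_of_nhds,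
    .of_forall fun _ => mul_one _⟩

theorem mer_congr (ha : Mer n a x) (h : ∀ᶠ y in gen {x}, a y = b y) : Mer n b x :=
  let ⟨u, v, h1, h2, h3, h4⟩ := ha
  ⟨u, v, h1, h2, h3, (h4.and h).mono fun _ k => k.2 ▸ k.1⟩

theorem mul_not_zero (ha : Hol n a x) (hb : Hol n b x) (h1 : ¬∀ᶠ y in 𝓝 x, a y = 0)
    (h2 : ¬∀ᶠ y in 𝓝 x, b y = 0) : ¬∀ᶠ y in 𝓝 x, a y * b y = 0 :=
  not_zero_of_gen (((hol_gen_ne ha h1).and (hol_gen_ne hb h2)).mono fun _ k => mul_ne_zero k.1 k.2)

theorem mer_add (ha : Mer n a x) (hb : Mer n b x) : Mer n (fun y => a y + b y) x :=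
  let ⟨u, v, h1, h2, h3, h4⟩ := ha
  let ⟨u', v', k1, k2, k3, k4⟩ := hb
  ⟨fun y => u y * v' y + u' y * v y, fun y => v y * v' y, hol_add (hol_mul h1 k2) (hol_mul k1 h2),
    hol_mul h2 k2, mul_not_zero h2 k2 h3 k3, (h4.and k4).mono fun _ k => by
      dsimp only; rw [← k.1, ← k.2]; ring⟩

theorem mer_mul (ha : Mer n a x) (hb : Mer n b x) : Mer n (fun y => a y * b y) x :=
  let ⟨u, v, h1, h2, h3, h4⟩ := ha
  let ⟨u', v', k1, k2, k3, k4⟩ := hb
  ⟨fun y => u y * u' y, fun y => v y * v' y, hol_mul h1 k1, hol_mul h2 k2,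
    mul_not_zero h2 k2 h3 k3, (h4.and k4).mono fun _ k => by
      dsimp only; rw [← k.1, ← k.2]; ring⟩

theorem mer_neg (ha : Mer n a x) : Mer n (fun y => -a y) x := by
  simpa using mer_mul (mer_of_hol (hol_const (-1))) ha

/-- a meromorphic germ is generically zero or generically not zero -/
theorem mer_ident (ha : Mer n a x) :
    (∀ᶠ y in gen {x}, a y = 0) ∨ ∀ᶠ y in gen {x}, a y ≠ 0 := by
  obtain ⟨u, v, h1, h2, h3, h4⟩ := ha
  by_cases h : ∀ᶠ y in 𝓝 x, u y = 0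
  · refine .inl ?_
    filter_upwards [h4, gen_of_nhds h, hol_gen_ne h2 h3] with y k1 k2 k3
    exact (mul_eq_zero.1 (k1.trans k2)).resolve_right k3
  · refine .inr ?_
    filter_upwards [h4, hol_gen_ne h1 h] with y k1 k2
    exact left_ne_zero_of_mul (k1 ▸ k2)

theorem mer_inv (ha : Mer n a x) : Mer n (fun y => (a y)⁻¹) x := by
  rcases mer_ident ha with h | h
  · exact mer_congr (mer_of_hol (hol_const 0)) (h.mono fun y k => by rw [k, inv_zero])
  obtain ⟨u, v, h1, h2, h3, h4⟩ := ha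
  refine ⟨v, u, h2, h1, not_zero_of_gen ?_, ?_⟩
  · filter_upwards [h, h4, hol_gen_ne h2 h3] with y k1 k2 k3 using k2 ▸ mul_ne_zero k1 k3
  · filter_upwards [h, h4] with y k1 k2
    rw [← k2, inv_mul_cancel_left₀ k1]

theorem mer_div (ha : Mer n a x) (hb : Mer n b x) : Mer n (fun y => a y / b y) x := by
  simpa only [div_eq_mul_inv] using mer_mul ha (mer_inv hb)

theorem mer_near (ha : Mer n a x) : ∀ᶠ y in 𝓝 x, Mer n a y := by
  obtain ⟨u, v, h1, h2, h3, h4⟩ := ha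
  filter_upwards [h1.near, h2.near, (hol_ident h2).resolve_left h3, gen_near h4] with y a1 a2 a3 a4
    using ⟨u, v, a1, a2, a3, a4⟩

/-- a meromorphic germ agrees generically with holomorphic germs -/
theorem mer_gen_hol (ha : Mer n a x) :
    ∀ᶠ y in gen {x}, ∃ b, Hol n b y ∧ ∀ᶠ z in 𝓝 y, a z = b z := by
  obtain ⟨u, v, h1, h2, h3, h4⟩ := ha
  filter_upwards [gen_interior h4, hol_gen_ne h2 h3, gen_of_nhds h1.near, gen_of_nhds h2.near]
    with y a1 a2 a3 a4
  refine ⟨_, hol_div a3 a4 a2, ?_⟩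
  filter_upwards [a1, hol_ne a4 a2] with z b1 b2 using eq_div_of_mul_eq b2 b1

/-- the identity theorem along a connected set -/
theorem mer_ident_conn {F : Set W} (hF : IsPreconnected F) (ha : ∀ x ∈ F, Mer n a x) :
    (∀ᶠ y in gen F, a y = 0) ∨ ∀ᶠ y in gen F, a y ≠ 0 := by
  have h := hF.subset_or_subset (u := {x | ∀ᶠ z in 𝓝 x, ∀ᶠ y in gen {z}, a y = 0})
    (v := {x | ∀ᶠ z in 𝓝 x, ∀ᶠ y in gen {z}, a y ≠ 0}) isOpen_setOf_eventually_nhds
    isOpen_setOf_eventually_nhds (disjoint_left.2 fun x h1 h2 =>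
      ((gen_of_near h1).and (gen_of_near h2)).exists.elim fun _ k => k.2 k.1)
    fun x hx => (mer_ident (ha x hx)).imp gen_near gen_near
  exact h.imp (fun h => gen_iff.2 fun x hx => gen_of_near (h hx))
    fun h => gen_iff.2 fun x hx => gen_of_near (h hx)

end hol

end Lo

open Lo

namespace Mdl

variable {n N : ℕ} {K : Type} [Field K] [Algebra ℂ K] (M : Mdl n N K) {f g : K}

theorem val_zero (y : M.W) : M.val 0 y = 0 := by simpa using M.val_const 0 y

theorem val_one (y : M.W) : M.val 1 y = 1 := by simpa using M.val_const 1 y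

theorem val_neg (f : K) : ∀ᶠ y in gen M.F, M.val (-f) y = -M.val f y :=
  (M.val_add f (-f)).mono fun y h => by
    rw [add_neg_cancel, val_zero] at h
    exact (neg_eq_of_add_eq_zero_right h.symm).symm

theorem val_sub (f g : K) : ∀ᶠ y in gen M.F, M.val (f - g) y = M.val f y - M.val g y := by
  filter_upwards [M.val_add f (-g), M.val_neg g] with y h1 h2
  rw [sub_eq_add_neg, h1, h2, sub_eq_add_neg]

theorem val_ne (hf : f ≠ 0) : ∀ᶠ y in gen M.F, M.val f y ≠ 0 :=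
  (M.val_mul f f⁻¹).mono fun y h => by
    rw [mul_inv_cancel₀ hf, val_one] at h
    exact left_ne_zero_of_mul (h ▸ one_ne_zero)

theorem val_inv (f : K) : ∀ᶠ y in gen M.F, M.val f⁻¹ y = (M.val f y)⁻¹ := by
  by_cases hf : f = 0
  · simp [hf, val_zero]
  refine (M.val_mul f f⁻¹).mono fun y h => ?_
  rw [mul_inv_cancel₀ hf, val_one] at h
  exact eq_inv_of_mul_eq_one_right h.symm

theorem val_div (f g : K) : ∀ᶠ y in gen M.F, M.val (f / g) y = M.val f y / M.val g y := by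
  filter_upwards [M.val_mul f g⁻¹, M.val_inv g] with y h1 h2
  rw [div_eq_mul_inv, h1, h2, div_eq_mul_inv]

theorem val_pow (f : K) (k : ℕ) : ∀ᶠ y in gen M.F, M.val (f ^ k) y = M.val f y ^ k := by
  induction k with
  | zero => simp [val_one]
  | succ k ih =>
    filter_upwards [M.val_mul (f ^ k) f, ih] with y h1 h2
    rw [pow_succ, h1, h2, pow_succ]

theorem val_zpow (f : K) (k : ℤ) : ∀ᶠ y in gen M.F, M.val (f ^ k) y = M.val f y ^ k := by
  rcases k with k | k
  · simpa using M.val_pow f k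
  · filter_upwards [M.val_inv (f ^ (k + 1)), M.val_pow f (k + 1)] with y h1 h2
    rw [zpow_negSucc, h1, h2, zpow_negSucc]

theorem val_sum {ι : Type*} (s : Finset ι) (f : ι → K) :
    ∀ᶠ y in gen M.F, M.val (∑ i ∈ s, f i) y = ∑ i ∈ s, M.val (f i) y := by
  classical
  induction s using Finset.induction_on with
  | empty => simp [val_zero]
  | insert i s hi ih =>
    filter_upwards [M.val_add (f i) (∑ i ∈ s, f i), ih] with y h1 h2
    rw [Finset.sum_insert hi, h1, h2, Finset.sum_insert hi]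

theorem val_prod {ι : Type*} (s : Finset ι) (f : ι → K) :
    ∀ᶠ y in gen M.F, M.val (∏ i ∈ s, f i) y = ∏ i ∈ s, M.val (f i) y := by
  classical
  induction s using Finset.induction_on with
  | empty => simp [val_one]
  | insert i s hi ih =>
    filter_upwards [M.val_mul (f i) (∏ i ∈ s, f i), ih] with y h1 h2
    rw [Finset.prod_insert hi, h1, h2, Finset.prod_insert hi]

/-- from the fibre to a point -/
theorem at_pt {p : M.W → Prop} (h : ∀ᶠ y in gen M.F, p y) (x : M.F) :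
    ∀ᶠ y in gen {(x : M.W)}, p y := gen_iff.1 h x x.2

theorem eq_of_val (x : M.F) (h : ∀ᶠ y in gen {(x : M.W)}, M.val f y = M.val g y) : f = g := by
  by_contra e
  obtain ⟨y, h1, h2, h3⟩ := (h.and ((M.at_pt (M.val_ne (sub_ne_zero.2 e)) x).and
    (M.at_pt (M.val_sub f g) x))).exists
  exact h2 (by rw [h3, h1, sub_self])

theorem mem_O {x : M.F} : f ∈ M.O x ↔ Hol n (M.val f) x := Iff.rfl

theorem mem_O_of {x : M.F} {a : M.W → ℂ} (ha : Hol n a x)
    (h : ∀ᶠ y in gen {(x : M.W)}, M.val f y = a y) : f ∈ M.O x :=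
  ha.congr ((M.val_eq x.2 ha h).mono fun _ => Eq.symm)

theorem val_eq_at {x : M.F} {a : M.W → ℂ} (ha : Hol n a x)
    (h : ∀ᶠ y in gen {(x : M.W)}, M.val f y = a y) : M.val f x = a x :=
  (M.val_eq x.2 ha h).self_of_nhds

theorem O_near {x : M.F} (hf : f ∈ M.O x) : ∀ᶠ y in 𝓝 x, f ∈ M.O y :=
  continuousAt_subtype_val.eventually (Hol.near hf)

theorem O_cont {x : M.F} (hf : f ∈ M.O x) : ContinuousAt (fun y : M.F => M.val f y) x :=
  (hol_cont hf).comp continuousAt_subtype_val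

theorem not_zero {x : M.F} (hf : f ≠ 0) : ¬∀ᶠ y in 𝓝 (x : M.W), M.val f y = 0 :=
  not_zero_of_gen (M.at_pt (M.val_ne hf) x)

theorem inv_mem {x : M.F} (hf : f ∈ M.O x) (h : M.val f x ≠ 0) : f⁻¹ ∈ M.O x :=
  M.mem_O_of (hol_inv hf h) (M.at_pt (M.val_inv f) x)

theorem nhds_mul {x : M.F} (hf : f ∈ M.O x) (hg : g ∈ M.O x) :
    ∀ᶠ y in 𝓝 (x : M.W), M.val (f * g) y = M.val f y * M.val g y :=
  M.val_eq x.2 (hol_mul hf hg) (M.at_pt (M.val_mul f g) x)

theorem nhds_add {x : M.F} (hf : f ∈ M.O x) (hg : g ∈ M.O x) :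
    ∀ᶠ y in 𝓝 (x : M.W), M.val (f + g) y = M.val f y + M.val g y :=
  M.val_eq x.2 (hol_add hf hg) (M.at_pt (M.val_add f g) x)

theorem nhds_sub {x : M.F} (hf : f ∈ M.O x) (hg : g ∈ M.O x) :
    ∀ᶠ y in 𝓝 (x : M.W), M.val (f - g) y = M.val f y - M.val g y :=
  M.val_eq x.2 (hol_sub hf hg) (M.at_pt (M.val_sub f g) x)

/-- the value at `x` -/
def ev (x : M.F) : M.O x →ₐ[ℂ] ℂ where
  toFun f := M.val f x
  map_one' := M.val_one x
  map_zero' := M.val_zero x
  map_mul' f g := (M.nhds_mul f.2 g.2).self_of_nhds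
  map_add' f g := (M.nhds_add f.2 g.2).self_of_nhds
  commutes' c := M.val_const c x

theorem val_mul_at {x : M.F} (hf : f ∈ M.O x) (hg : g ∈ M.O x) :
    M.val (f * g) x = M.val f x * M.val g x := (M.nhds_mul hf hg).self_of_nhds

theorem val_add_at {x : M.F} (hf : f ∈ M.O x) (hg : g ∈ M.O x) :
    M.val (f + g) x = M.val f x + M.val g x := (M.nhds_add hf hg).self_of_nhds

theorem val_sub_at {x : M.F} (hf : f ∈ M.O x) (hg : g ∈ M.O x) :
    M.val (f - g) x = M.val f x - M.val g x := (M.nhds_sub hf hg).self_of_nhds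

theorem val_pow_at {x : M.F} (hf : f ∈ M.O x) (k : ℕ) : M.val (f ^ k) x = M.val f x ^ k :=
  map_pow (M.ev x) ⟨f, hf⟩ k

theorem isUnit_iff {x : M.F} (f : M.O x) : IsUnit f ↔ M.val f x ≠ 0 :=
  ⟨fun h => (h.map (M.ev x)).ne_zero, fun h => IsUnit.of_mul_eq_one ⟨_, M.inv_mem f.2 h⟩
    (Subtype.ext (mul_inv_cancel₀ fun e : (f : K) = 0 => h (by rw [e, val_zero])))⟩

end Mdl

end Vale.Agent.P277Z
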