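import Vale.Agent.P277Z.Lo.Sk
import Vale.Agent.P277Z.Oka.All
import Vale.Agent.P284Z.F0.Cov

/-!
# P277Z, block LOC: differences of analytic sets have locally finitely many components
-/

open Set Filter Topology Polynomial Metric
open Vale.Agent.P298.H941 Vale.Agent.P277Z.Oka

noncomputable section

namespace Vale.Agent.P277Z.Lo

namespace CC

section top

variable {E E' : Type} [TopologicalSpace E] [TopologicalSpace E'] {x : E} {S S₁ S₂ : Set E}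

/-- `U` is open and closed in `V ∩ S` -/
def LC (V S U : Set E) : Prop := ∀ z ∈ V, z ∈ S → ∀ᶠ w in 𝓝 z, w ∈ S → (w ∈ U ↔ z ∈ U)

/-- the open and closed subsets of `S` which come near `x` meet a finite set -/
def Fc (x : E) (S : Set E) : Prop :=
  ∀ V ∈ 𝓝 x, ∃ T : Set E, T.Finite ∧ ∀ᶠ y in 𝓝 x, ∀ U, LC V S U → y ∈ S → y ∈ U →
    ∃ p ∈ T, p ∈ V ∧ p ∈ S ∧ p ∈ U

theorem LC.mono {V U : Set E} (h : LC V S U) {V' : Set E} (h1 : V' ⊆ V)
    (h2 : ∀ z ∈ V', ∀ᶠ w in 𝓝 z, w ∈ S₁ → w ∈ S) : LC V' S₁ U := fun z hz hz' => by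
  filter_upwards [h z (h1 hz) ((h2 z hz).self_of_nhds hz'), h2 z hz] with w e1 e2 e3
    using e1 (e2 e3)

theorem Fc.cover (h₁ : Fc x S₁) (h₂ : Fc x S₂) (h : ∀ᶠ y in 𝓝 x, y ∈ S ↔ y ∈ S₁ ∨ y ∈ S₂) :
    Fc x S := by
  intro V hV
  obtain ⟨T₁, f₁, k₁⟩ := h₁ _ (inter_mem hV h.eventually_nhds)
  obtain ⟨T₂, f₂, k₂⟩ := h₂ _ (inter_mem hV h.eventually_nhds)
  refine ⟨T₁ ∪ T₂, f₁.union f₂, ?_⟩
  filter_upwards [k₁, k₂, h] with y e₁ e₂ e U hU hy hyU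
  rcases e.1 hy with c | c
  · obtain ⟨p, a1, a2, a3, a4⟩ := e₁ U (hU.mono inter_subset_left fun z hz =>
      Eventually.mono hz.2 fun w hw hw' => hw.2 (Or.inl hw')) c hyU
    exact ⟨p, Or.inl a1, a2.1, (Eventually.self_of_nhds a2.2).2 (Or.inl a3), a4⟩
  · obtain ⟨p, a1, a2, a3, a4⟩ := e₂ U (hU.mono inter_subset_left fun z hz =>
      Eventually.mono hz.2 fun w hw hw' => hw.2 (Or.inr hw')) c hyU
    exact ⟨p, Or.inr a1, a2.1, (Eventually.self_of_nhds a2.2).2 (Or.inr a3), a4⟩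

theorem Fc.congr (h₁ : Fc x S₁) (h : ∀ᶠ y in 𝓝 x, y ∈ S ↔ y ∈ S₁) : Fc x S :=
  h₁.cover h₁ (h.mono fun _ hy => hy.trans or_self_iff.symm)

theorem fc_empty (h : ∀ᶠ y in 𝓝 x, y ∉ S) : Fc x S := fun _ _ =>
  ⟨∅, finite_empty, h.mono fun _ hy _ _ h _ => (hy h).elim⟩

theorem fc_conn (h : ∀ V ∈ 𝓝 x, ∃ V' ∈ 𝓝 x, V' ⊆ V ∧ IsPreconnected (V' ∩ S)) : Fc x S := by
  intro V hV
  obtain ⟨V', h1, h2, h3⟩ := h V hV
  rcases (V' ∩ S).eq_empty_or_nonempty with e | ⟨p, hp⟩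
  · exact ⟨∅, finite_empty, mem_of_superset h1 fun y hy _ _ k _ =>
      (eq_empty_iff_forall_notMem.1 e y ⟨hy, k⟩).elim⟩
  refine ⟨{p}, finite_singleton p, mem_of_superset h1 fun y hy U hU k k' =>
    ⟨p, rfl, h2 hp.1, hp.2, ?_⟩⟩
  refine (h3.induction₂' (fun a b => a ∈ U ↔ b ∈ U) (fun z hz => ?_)
    (fun _ _ _ _ _ _ e e' => e.trans e') (x := y) ⟨hy, k⟩ hp).1 k'
  filter_upwards [mem_nhdsWithin_of_mem_nhds (hU z (h2 hz.1) hz.2), self_mem_nhdsWithin]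
    with w e1 e2 using ⟨(e1 e2.2).symm, e1 e2.2⟩

theorem Fc.push {x' : E'} {Φ : E' → E} {Ψ : E → E'} (h : Fc x' (Φ ⁻¹' S)) (hΦ : Continuous Φ)
    (h1 : Φ x' = x) (h2 : Tendsto Ψ (𝓝 x) (𝓝 x')) (h3 : ∀ y, Φ (Ψ y) = y) : Fc x S := by
  intro V hV
  obtain ⟨T, f, k⟩ := h (Φ ⁻¹' V) (hΦ.continuousAt.preimage_mem_nhds (h1.symm ▸ hV))
  refine ⟨Φ '' T, f.image Φ, ?_⟩
  filter_upwards [h2.eventually k] with y e U hU hy hyU
  obtain ⟨p, a1, a2, a3, a4⟩ := e (Φ ⁻¹' U) (fun z hz hz' => hΦ.continuousAt.eventually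
    (hU _ hz hz')) (by rwa [mem_preimage, h3]) (by rwa [mem_preimage, h3])
  exact ⟨Φ p, mem_image_of_mem Φ a1, a2, a3, a4⟩

end top

/-- a small value forces a root nearby -/
theorem near_root {p : ℂ[X]} {d : ℕ} (hd : p.natDegree ≤ d) (h0 : p.coeff d ≠ 0) {t : ℂ} {ε : ℝ}
    (hε : 0 < ε) (h : ‖p.eval t‖ < ‖p.coeff d‖ * ε ^ d) : ∃ s, p.eval s = 0 ∧ dist s t < ε := by
  by_contra! k
  have e : p.natDegree = d := le_antisymm hd (le_natDegree_of_ne_zero h0)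
  have hs := IsAlgClosed.splits p
  have h1 : ‖(p.roots.map (t - ·)).prod‖ = (p.roots.map fun s => ‖t - s‖).prod := by
    have := map_multiset_prod (normHom (α := ℂ)) (p.roots.map (t - ·))
    rw [Multiset.map_map] at this
    exact this
  have h2 := Multiset.prod_map_le_prod_map₀ (s := p.roots) (fun _ => ε) (fun s => ‖t - s‖)
    (fun _ _ => hε.le) fun s hs => by
      have := k s (isRoot_of_mem_roots hs)
      rwa [dist_comm, dist_eq_norm] at this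
  rw [Multiset.map_const', Multiset.prod_replicate, ← hs.natDegree_eq_card_roots, e] at h2
  rw [hs.eval_eq_prod_roots, norm_mul, h1, leadingCoeff, e] at h
  exact h.not_ge (mul_le_mul_of_nonneg_left h2 (norm_nonneg _))

/-- finite coverings given by the roots of a polynomial -/
theorem cov {Y : Type} [NormedAddCommGroup Y] [NormedSpace ℂ Y] {d : ℕ} {g : Y → ℂ[X]} {S : Set Y}
    (hg : PF 0 d g) (h1 : ∀ y ∈ S, (g y).coeff d ≠ 0)
    (h2 : ∀ ε > 0, ∀ᶠ y in 𝓝 (0 : Y), y ∈ S → ∀ t, (g y).eval t = 0 → ‖t‖ < ε) (h : Fc 0 S) :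
    Fc 0 {z : ℂ × Y | z.2 ∈ S ∧ pf g z = 0} := by
  intro V hV
  obtain ⟨ε, hε, H⟩ := Nug.pick (y := 0) (Q := fun z => z ∈ V) hV
  obtain ⟨T, hT, k⟩ := h _ (H.and ((h2 ε hε).eventually_nhds.and hg.eventually))
  refine ⟨⋃ y ∈ T, (fun t => (t, y)) '' {t | y ∈ S ∧ (g y).IsRoot t}, hT.biUnion fun y _ => ?_, ?_⟩
  · refine Finite.image _ ?_
    by_cases hy : y ∈ S
    · exact (finite_setOfPred_isRoot fun e => h1 y hy (by rw [e, coeff_zero])).subset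
        fun _ ht => ht.2
    · exact finite_empty.subset fun _ ht => hy ht.1
  filter_upwards [(continuous_snd.tendsto (0 : ℂ × Y)).eventually k] with z e U hU hz hzU
  refine (e {y | ∃ s, (g y).eval s = 0 ∧ (s, y) ∈ U} ?_ hz.1 ⟨z.1, hz.2, hzU⟩).elim
    fun p ⟨a1, a2, a3, s, a4, a5⟩ => ⟨(s, p), mem_biUnion a1 ⟨s, ⟨a3, a4⟩, rfl⟩,
      a2.1 s (a2.2.1.self_of_nhds a3 s a4), ⟨a3, a4⟩, a5⟩
  rintro y₀ ⟨b1, b2, b3⟩ hS
  have key : ∀ s, (g y₀).eval s = 0 → ∀ᶠ w in 𝓝 (s, y₀), (w.2 ∈ S ∧ pf g w = 0) →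
      (w ∈ U ↔ (s, y₀) ∈ U) := fun s hs => hU (s, y₀) (b1 s (b2.self_of_nhds hS s hs)) ⟨hS, hs⟩
  by_cases c : ∃ s, (g y₀).eval s = 0 ∧ (s, y₀) ∈ U
  · obtain ⟨s, c1, c2⟩ := id c
    obtain ⟨δ, hδ, c3⟩ := Metric.eventually_nhds_iff.1 (key s c1)
    have c4 : ContinuousAt (fun y => ‖(g y).eval s‖) y₀ :=
      ((b3.ana_pf s).continuousAt.comp (f := fun y => (s, y)) (by fun_prop)).norm
    have c5 : ContinuousAt (fun y => ‖(g y).coeff d‖ * δ ^ d) y₀ :=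
      (b3.ana d).continuousAt.norm.mul continuousAt_const
    filter_upwards [c4.eventually_lt c5 (by
      rw [c1, norm_zero]
      exact mul_pos (norm_pos_iff.2 (h1 _ hS)) (pow_pos hδ d)), ball_mem_nhds y₀ hδ]
      with y e1 e2 e3
    obtain ⟨s', e4, e5⟩ := near_root (b3.deg y) (h1 y e3) hδ e1
    exact iff_of_true ⟨s', e4, (c3 (y := (s', y)) (max_lt e5 e2) ⟨e3, e4⟩).2 c2⟩ c
  · have c1 := (isCompact_closedBall (0 : ℂ) ε).eventually_forall_of_forall_eventually (x₀ := y₀)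
      (P := fun y s => y ∈ S → (g y).eval s = 0 → (s, y) ∉ U) fun s _ => by
        have t1 : Tendsto (Prod.swap : Y × ℂ → ℂ × Y) (𝓝 (y₀, s)) (𝓝 (s, y₀)) :=
          continuous_swap.tendsto _
        by_cases hs : (g y₀).eval s = 0
        · filter_upwards [t1.eventually (key s hs)] with w e1 e2 e3 e4
            using c ⟨s, hs, (e1 ⟨e2, e3⟩).1 e4⟩
        · filter_upwards [t1.eventually ((b3.ana_pf s).continuousAt.eventually_ne hs)]
            with w e1 _ e3 using (e1 e3).elim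
    filter_upwards [c1, b2] with y e1 e2 e3
    refine iff_of_false ?_ c
    rintro ⟨s, e4, e5⟩
    exact e1 s (mem_closedBall_zero_iff.2 (e2 e3 s e4).le) e3 e4 e5

variable {E : Type} [NormedAddCommGroup E] [NormedSpace ℂ E] {ι : Type} [Fintype ι] {x : E}
  {h : ι → E → ℂ}

theorem idl_lt (hh : ∀ i, AnalyticAt ℂ (h i) x) {f : E → ℂ} (hf : AnalyticAt ℂ f x)
    (hn : ¬ In x h f) : idl x h < idl x fun o : Option ι => o.elim f h := by
  refine lt_of_le_of_ne (Ideal.span_mono ?_) fun e => hn ((in_iff hh hf).2 ?_)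
  · rintro _ ⟨i, rfl⟩
    exact ⟨some i, rfl⟩
  · rw [e]
    exact Ideal.subset_span ⟨none, rfl⟩

theorem fc_ne [FiniteDimensional ℂ E] {δ : E → ℂ} (hδ : AnalyticAt ℂ δ x) : Fc x {y | δ y ≠ 0} := by
  refine fc_conn fun V hV => ?_
  obtain ⟨r, hr, hb⟩ := Metric.eventually_nhds_iff_ball.1 (hδ.eventually_analyticAt.and hV)
  refine ⟨ball x r, ball_mem_nhds x hr, fun y hy => (hb y hy).2, ?_⟩
  rcases (ball x r ∩ {y | δ y ≠ 0}).eq_empty_or_nonempty with e | ⟨p, hp⟩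
  · rw [e]
    exact isPreconnected_empty
  · exact P284Z.preconn_ne_zero isOpen_ball (convex_ball x r).isPreconnected
      (fun y hy => (hb y hy).1) ⟨p, hp⟩ inter_subset_left fun z h1 h2 => ⟨h1, h2⟩

/-- the statement for the space `E` -/
def St (E : Type) [NormedAddCommGroup E] [NormedSpace ℂ E] : Prop :=
  ∀ (ι : Type) [Fintype ι] (x : E) (h : ι → E → ℂ), (∀ i, AnalyticAt ℂ (h i) x) →
    ∀ δ : E → ℂ, AnalyticAt ℂ δ x → Fc x {y | y ∈ Zs h ∧ δ y ≠ 0}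

/-- the generic part of an irreducible germ -/
theorem step {Y : Type} [NormedAddCommGroup Y] [NormedSpace ℂ Y] {h : ι → ℂ × Y → ℂ} {m : ℕ}
    {h' : Fin m → Y → ℂ} {d : ℕ} {g : Y → ℂ[X]} (IH : St Y) (T : Tri Y h h' d g) {δ : ℂ × Y → ℂ}
    (hδ : AnalyticAt ℂ δ 0) (hn : ¬ In 0 h δ) : ∃ ρ : ℂ × Y → ℂ, AnalyticAt ℂ ρ 0 ∧ ¬ In 0 h ρ ∧
      Fc 0 {z | z ∈ Zs h ∧ δ z ≠ 0 ∧ ρ z ≠ 0} := by
  obtain ⟨r, hr, hr', hin⟩ := T.norm δ hδ hn
  have a1 : AnalyticAt ℂ (fun y => (g y).coeff d * r y) 0 := (T.pfg.ana d).fun_mul hr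
  refine ⟨fun z => (g z.2).coeff d * r z.2, a1.comp_of_eq analyticAt_snd rfl,
    fun k => (T.pr.mul _ r (T.pfg.ana d) hr (T.down _ a1 k)).elim T.lead hr', ?_⟩
  refine (cov T.pfg (fun y hy => left_ne_zero_of_mul hy.2) (fun ε hε => (T.small ε hε).mono
    fun y hy hy' => hy hy'.1 (left_ne_zero_of_mul hy'.2)) (IH _ 0 h' T.pr.ana _ a1)).congr ?_
  filter_upwards [Nug.key T, hin.van, T.mem.van, eventually_all.2 fun j => (T.up j).van]
    with z e1 e2 e3 e4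
  refine ⟨fun k => ⟨⟨fun j => e4 j k.1, k.2.2⟩, e3 k.1⟩, fun k => ?_⟩
  have k1 := e1 k.2 k.1.1 (left_ne_zero_of_mul k.1.2)
  exact ⟨k1, fun k2 => right_ne_zero_of_mul k.1.2 (e2 (Option.forall.2 ⟨k2, k1⟩)), k.1.2⟩

theorem st_all : All St := Nug.ind fun E _ _ _ IH ι _ x h hh => by
  have := noe E
  generalize hI : idl x h = I
  induction I using IsNoetherian.induction generalizing ι with
  | hgt I ih =>
  have IHn : ∀ f, AnalyticAt ℂ f x → ¬ In x h f → ∀ δ : E → ℂ, AnalyticAt ℂ δ x →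
      Fc x {y | (y ∈ Zs h ∧ f y = 0) ∧ δ y ≠ 0} := fun f hf hn δ hδ =>
    (ih _ (hI ▸ idl_lt hh hf hn) (Option ι) inferInstance (fun o => o.elim f h)
      (Option.forall.2 ⟨hf, hh⟩) rfl δ hδ).congr
      (.of_forall fun y => and_congr_left' ⟨fun k => Option.forall.2 ⟨k.2, k.1⟩,
        fun k => ⟨fun i => k (some i), k none⟩⟩)
  intro δ hδ
  by_cases hP : Pr x h
  · by_cases hn : In x h δ
    · exact fc_empty (hn.van.mono fun y hy k => k.2 (hy k.1))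
    rcases Nug.cases pst_all hP with k | ⟨q, L, m, h', d, g, e, T⟩
    · exact (fc_ne hδ).congr (k.mono fun y hy => and_iff_right hy)
    obtain ⟨ρ, h1, h2, h3⟩ := step (IH q e) T (δ := fun w => δ (aff x L w))
      (hδ.comp_of_eq (ana_aff x L 0) (aff_zero x L))
      fun k => hn (aff_zero x L ▸ (in_aff x L 0).1 k)
    have h4 : Fc x {y | y ∈ Zs h ∧ δ y ≠ 0 ∧ ρ (affi x L y) ≠ 0} :=
      Fc.push (h3.congr (.of_forall fun z => by
          simp only [mem_preimage, mem_ofPred_eq, affi_aff]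
          rfl))
        (continuous_iff_continuousAt.2 fun z => (ana_aff x L z).continuousAt) (aff_zero x L)
        (tendsto_affi x L) (aff_affi x L)
    refine (IHn (fun y => ρ (affi x L y)) (h1.comp_of_eq (ana_affi x L x) (affi_self x L))
      (fun k => h2 (by simpa using k.comp (ana_aff x L 0) (aff_zero x L))) δ hδ).cover h4
      (.of_forall fun y => ?_)
    simp only [mem_ofPred_eq]
    tauto
  by_cases h1 : In x h fun _ => 1
  · exact fc_empty (h1.van.mono fun y hy k => one_ne_zero (hy k.1))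
  obtain ⟨a, b, ha, hb, h2, h3, h4⟩ : ∃ a b, AnalyticAt ℂ a x ∧ AnalyticAt ℂ b x ∧
      In x h (fun y => a y * b y) ∧ ¬ In x h a ∧ ¬ In x h b := by
    by_contra! k
    exact hP ⟨hh, h1, fun a b ha hb e => or_iff_not_imp_left.2 (k a b ha hb e)⟩
  refine (IHn a ha h3 δ hδ).cover (IHn b hb h4 δ hδ) (h2.van.mono fun y hy => ⟨fun k => ?_, ?_⟩)
  · exact (mul_eq_zero.1 (hy k.1)).imp (fun e => ⟨⟨k.1, e⟩, k.2⟩) fun e => ⟨⟨k.1, e⟩, k.2⟩
  · rintro (k | k) <;> exact ⟨k.1.1, k.2⟩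

end CC

/-- ROW CC -/
theorem cc : StCC := by
  intro E _ _ _ ι _ x h δ hh hδ V hV
  obtain ⟨T, h1, h2⟩ := CC.st_all E ι x h hh δ hδ V hV
  refine ⟨T, h1, h2.mono fun y hy U hU e1 e2 e3 => ?_⟩
  obtain ⟨p, a1, a2, a3, a4⟩ := hy U (fun z hz hz' => (hU z hz hz'.1 hz'.2).mono
    fun w hw hw' => hw hw'.1 hw'.2) ⟨e1, e2⟩ e3
  exact ⟨p, a1, a2, a3.1, a3.2, a4⟩

end Vale.Agent.P277Z.Lo
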