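import Vale.Agent.P277Z.Lo.Sk
import Vale.Agent.P277Z.Oka.Defs

/-!
# P277Z, block LOC: the row DV
-/

set_option linter.all false

open scoped Manifold ContDiff Topology
open Set Filter
open Vale.Agent.P272.K (Cm Chart At)

noncomputable section

namespace Vale.Agent.P277Z.Lo

namespace DvAux

variable {E : Type} [NormedAddCommGroup E] [NormedSpace ℂ E] [FiniteDimensional ℂ E] (v : E)
  {f e c : E → ℂ} {y : E}

/-- the derivative in the direction `v` -/
def D (f : E → ℂ) (y : E) : ℂ := fderiv ℂ f y v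

/-- the order along the line with direction `v` -/
def od (f : E → ℂ) (y : E) : ℕ∞ := analyticOrderAt (fun τ : ℂ => f (y + τ • v)) 0

theorem ana_D (hf : AnalyticAt ℂ f y) : AnalyticAt ℂ (D v f) y :=
  ((ContinuousLinearMap.apply ℂ ℂ v).analyticAt _).comp hf.fderiv

theorem ana_it (hf : AnalyticAt ℂ f y) (j : ℕ) : AnalyticAt ℂ ((D v)^[j] f) y := by
  induction j with
  | zero => exact hf
  | succ j ih => rw [Function.iterate_succ_apply']; exact ana_D v ih

theorem ana_line (y : E) : AnalyticAt ℂ (fun τ : ℂ => y + τ • v) 0 :=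
  analyticAt_const.add (analyticAt_id.smul analyticAt_const)

theorem tendsto_line (y : E) : Tendsto (fun τ : ℂ => y + τ • v) (𝓝 0) (𝓝 y) := by
  simpa using (ana_line v y).continuousAt.tendsto

theorem ana_ln (hf : AnalyticAt ℂ f y) : AnalyticAt ℂ (fun τ : ℂ => f (y + τ • v)) 0 :=
  hf.comp_of_eq (ana_line v y) (by simp)

theorem iter_ln (hf : AnalyticAt ℂ f y) (j : ℕ) :
    iteratedDeriv j (fun τ : ℂ => f (y + τ • v)) 0 = (D v)^[j] f y := by
  induction j generalizing f with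
  | zero => simp
  | succ j ih =>
    rw [iteratedDeriv_succ', Function.iterate_succ_apply, ← ih (ana_D v hf)]
    refine Filter.EventuallyEq.iteratedDeriv_eq j ?_
    filter_upwards [(tendsto_line v y).eventually hf.eventually_analyticAt] with τ hτ
    have h1 : HasDerivAt (fun τ : ℂ => y + τ • v) v τ := by
      simpa using ((hasDerivAt_id τ).smul_const v).const_add y
    exact (hτ.differentiableAt.hasFDerivAt.comp_hasDerivAt τ h1).deriv

theorem le_od (hf : AnalyticAt ℂ f y) {k : ℕ} :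
    (k : ℕ∞) ≤ od v f y ↔ ∀ j < k, (D v)^[j] f y = 0 := by
  simp only [od, natCast_le_analyticOrderAt_iff_iteratedDeriv_eq_zero (ana_ln v hf), iter_ln v hf]

theorem od_mul (he : AnalyticAt ℂ e y) (hc : AnalyticAt ℂ c y) (h : ∀ᶠ w in 𝓝 y, f w = e w * c w) :
    od v f y = od v e y + od v c y :=
  have h' := (tendsto_line v y).eventually h
  (analyticOrderAt_congr h').trans (analyticOrderAt_mul (ana_ln v he) (ana_ln v hc))

theorem exists_dir (hf : AnalyticAt ℂ f y) (h0 : ¬∀ᶠ w in 𝓝 y, f w = 0) :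
    ∃ (v : E) (d : ℕ), (D v)^[d] f y ≠ 0 := by
  by_cases h1 : f y = 0
  · obtain ⟨q, L, -, hL⟩ := Oka.exists_reg hf h1 h0
    refine ⟨L (1, 0), by_contra fun h => hL ?_⟩
    have h2 : od (L (1, 0)) f y = ⊤ := ENat.eq_top_iff_forall_ge.2 fun k =>
      (le_od _ hf).2 fun j _ => by_contra fun k => h ⟨j, k⟩
    refine (analyticOrderAt_eq_top.1 h2).mono fun τ hτ => ?_
    rwa [← map_smul, Prod.smul_mk, smul_zero, smul_eq_mul, mul_one] at hτ
  · exact ⟨0, 0, h1⟩

theorem loc_const {k : ℕ} (he : AnalyticAt ℂ e y) (hc : AnalyticAt ℂ c y)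
    (h : ∀ᶠ w in 𝓝 y, f w = e w * c w) (hk : (D v)^[k] f y ≠ 0) :
    ∀ᶠ w in 𝓝 y, (∀ j < k, (D v)^[j] f w = 0) → (e w = 0 ↔ e y = 0) := by
  by_cases h0 : e y = 0
  · have hf : AnalyticAt ℂ f y := (he.fun_mul hc).congr (h.mono fun _ h => h.symm)
    obtain ⟨b, hb, h1⟩ : ∃ b < k, (D v)^[b] c y ≠ 0 := by
      by_contra! h1
      refine hk ((le_od v hf (k := 1 + k)).1 ?_ k (by omega))
      rw [od_mul v he hc h, Nat.cast_add]
      exact add_le_add ((le_od v he).2 fun j hj => by rwa [Nat.lt_one_iff.1 hj]) ((le_od v hc).2 h1)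
    filter_upwards [(ana_it v hc b).continuousAt.eventually_ne h1, he.eventually_analyticAt,
      hc.eventually_analyticAt, hf.eventually_analyticAt, h.eventually_nhds] with w h2 h3 h4 h5 h6 h7
    refine iff_of_true (by_contra fun h8 => h2 ((le_od v h4 (k := k)).1 ?_ b hb)) h0
    have h9 : od v e w = 0 := analyticOrderAt_eq_zero.2 (.inr (by simpa using h8))
    have := (le_od v h5).2 h7
    rwa [od_mul v h3 h4 h6, h9, zero_add] at this
  · exact (he.continuousAt.eventually_ne h0).mono fun w hw _ => iff_of_false hw h0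

theorem dvE (H : StCC) {ι : Type} [Fintype ι] {x : E} {h : ι → E → ℂ} {t : E → ℂ}
    (hh : ∀ i, AnalyticAt ℂ (h i) x) (ht : AnalyticAt ℂ t x) (h0 : ¬∀ᶠ y in 𝓝 x, t y = 0)
    {V : Set E} (hV : V ∈ 𝓝 x) : ∃ T : Set E, T.Finite ∧ ∀ᶠ y in 𝓝 x, ∀ U : Set E,
      (∀ z ∈ V, (∀ i, h i z = 0) → ∃ e c : E → ℂ, AnalyticAt ℂ e z ∧ AnalyticAt ℂ c z ∧
        ∀ᶠ w in 𝓝 z, t w = e w * c w ∧ ((∀ i, h i w = 0) → (w ∈ U ↔ e w = 0))) →
      (∀ i, h i y = 0) → y ∈ U → ∃ p ∈ T, p ∈ V ∧ (∀ i, h i p = 0) ∧ p ∈ U := by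
  classical
  obtain ⟨v, d, hd⟩ := exists_dir ht h0
  choose T hT h1 using fun k : ℕ => H E (ι ⊕ Fin k) x (Sum.elim h fun j => (D v)^[j] t)
    ((D v)^[k] t) (Sum.forall.2 ⟨hh, fun j => ana_it v ht j⟩) (ana_it v ht k) V hV
  refine ⟨⋃ k ∈ Iic d, T k, (finite_Iic d).biUnion fun k _ => hT k, ?_⟩
  filter_upwards [(eventually_all_finite (finite_Iic d)).2 fun k _ => h1 k,
    (ana_it v ht d).continuousAt.eventually_ne hd] with y h2 h3 U hU hy hyU
  have ex : ∃ k, (D v)^[k] t y ≠ 0 := ⟨d, h3⟩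
  have hk : Nat.find ex ∈ Iic d := Nat.find_min' ex h3
  refine (h2 _ hk U (fun z hz h4 h5 => ?_)
    (Sum.forall.2 ⟨hy, fun j => not_not.1 (Nat.find_min ex j.2)⟩) (Nat.find_spec ex) hyU).imp
      fun p ⟨hp, h4, h5, _, h6⟩ => ⟨mem_biUnion hk hp, h4, fun i => h5 (.inl i), h6⟩
  · obtain ⟨e, c, he, hc, h6⟩ := hU z hz fun i => h4 (.inl i)
    filter_upwards [h6, loc_const v he hc (h6.mono fun _ h => h.1) h5] with w h7 h8 h9 _
    rw [h7.2 fun i => h9 (.inl i), h6.self_of_nhds.2 fun i => h4 (.inl i)]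
    exact h8 fun j hj => h9 (.inr ⟨j, hj⟩)

end DvAux

theorem dv (H : StCC) : StDv := by
  intro n W _ _ _ ι _ x h t hh ht h0 V hV
  have he := at_chartAt (n := n) x
  set φ := chartAt (Cm n) x
  obtain ⟨T, hT, h1⟩ := DvAux.dvE H (fun i => hh i φ he) (ht φ he)
    (fun k => h0 ((ev_chart (p := fun y => t y = 0) he).1 k)) (V := φ.target ∩ φ.symm ⁻¹' V)
    (inter_mem (φ.open_target.mem_nhds (φ.map_source he.2)) (tendsto_symm he hV))
  refine ⟨φ.symm '' T, hT.image _, ?_⟩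
  filter_upwards [(φ.continuousAt he.2).eventually h1, φ.open_source.mem_nhds he.2]
    with y h2 h3 U hU hy hyU
  refine (h2 (φ.symm ⁻¹' U) (fun z hz h4 => ?_)
    (fun i => by rw [φ.left_inv h3]; exact hy i) (by rwa [mem_preimage, φ.left_inv h3])).elim
      fun p ⟨hp, h4, h5, h6⟩ => ⟨_, mem_image_of_mem _ hp, h4.2, h5, h6⟩
  · obtain ⟨e, c, h5, h6, h7⟩ := hU _ hz.2 h4
    have ha : At φ (φ.symm z) := ⟨he.1, φ.map_target hz.1⟩
    have h8 := (tendsto_symm ha).eventually h7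
    have h9 := h5 φ ha
    have h10 := h6 φ ha
    rw [φ.right_inv hz.1] at h8 h9 h10
    exact ⟨_, _, h9, h10, h8⟩

end Vale.Agent.P277Z.Lo
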