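import Vale.Agent.P277Z.Lo.Sk
import Vale.Agent.P277Z.Val.Jac

/-!
# P277Z, block LOC: Jacobians and canonical divisors
-/

set_option linter.all false

open scoped Manifold ContDiff Topology
open Set Filter
open Vale.Agent.P272.K (Cm Chart At)
open Vale.Agent.P297 (Place)

noncomputable section

namespace Vale.Agent.P277Z

namespace Lo

namespace Jc

variable {n : ℕ} {W : Type} [TopologicalSpace W] [ChartedSpace (Cm n) W] {x : W}
  {g g' u v : Fin n → W → ℂ} {e e' : Chart n W}

theorem jd_eq (g : Fin n → W → ℂ) (e : Chart n W) (y : W) :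
    jd g e y = (fderiv ℂ (fun z i => g i (e.symm z)) (e y)).det := rfl

theorem jd_congr (he : At e x) (h : ∀ i, ∀ᶠ y in 𝓝 x, g i y = g' i y) : jd g e x = jd g' e x := by
  have h1 : (fun z i => g i (e.symm z)) =ᶠ[𝓝 (e x)] fun z i => g' i (e.symm z) :=
    ((tendsto_symm he).eventually (eventually_all.2 h)).mono fun z hz => funext hz
  rw [jd_eq, jd_eq, h1.fderiv_eq]

theorem jd_sub_const (g : Fin n → W → ℂ) (c : Fin n → ℂ) (e : Chart n W) (y : W) :
    jd (fun i y => g i y - c i) e y = jd g e y := by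
  rw [jd_eq, jd_eq, ← fderiv_sub_const (f := fun z i => g i (e.symm z)) c]
  rfl

theorem ev_at (he : At e x) : ∀ᶠ y in 𝓝 x, At e y :=
  mem_of_superset (e.open_source.mem_nhds he.2) fun _ hy => ⟨he.1, hy⟩

theorem an_vec (he : At e x) (h : ∀ i, Hol n (g i) x) :
    AnalyticAt ℂ (fun z i => g i (e.symm z)) (e x) := analyticAt_pi_iff.2 fun i => h i e he

theorem jd_det (he : At e x) (h : ∀ i, Hol n (g i) x) :
    jd g e x = (Matrix.of fun i j => Val.pd j (fun z => g i (e.symm z)) (e x)).det := by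
  rw [jd_eq, Val.det_eq_Jm]
  congr 1
  ext i j
  exact Val.Jm_apply (an_vec he h).differentiableAt i j

theorem jd_self (he : At e x) : jd (fun i y => e y i) e x = 1 := by
  have h1 : (fun z i => e (e.symm z) i) =ᶠ[𝓝 (e x)] id :=
    mem_of_superset (e.open_target.mem_nhds (e.map_source he.2)) fun z hz => e.right_inv hz
  rw [jd_eq, h1.fderiv_eq, fderiv_id]
  exact LinearMap.det_id

variable [IsManifold 𝓘(ℂ, Cm n) ω W]

theorem hol_chart (he : At e x) (i : Fin n) : Hol n (fun y => e y i) x :=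
  fun _ he' => analyticAt_pi_iff.1 (trans_an he he') i

theorem hol_of_an (he : At e x) {a : Cm n → ℂ} (h : AnalyticAt ℂ a (e x)) :
    Hol n (fun y => a (e y)) x := fun e' he' =>
  h.comp_of_eq (trans_an he he') (by rw [e'.left_inv he'.2])

theorem jd_hol (he : At e x) (h : ∀ i, Hol n (g i) x) : Hol n (jd g e) x :=
  hol_of_an he (Val.an_jac (an_vec he h))

/-- the chain rule for a change of the chart -/
theorem jd_chart (he : At e x) (he' : At e' x) (h : ∀ i, Hol n (g i) x) :
    jd g e x = jd g e' x * jd (fun i y => e' y i) e x := by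
  have h1 : (fun z i => g i (e.symm z)) =ᶠ[𝓝 (e x)]
      (fun z i => g i (e'.symm z)) ∘ fun z i => e' (e.symm z) i :=
    ((tendsto_symm he).eventually (ev_at he')).mono fun z hz => by
      funext i
      exact congrArg (g i) (e'.left_inv hz.2).symm
  have h2 : (fun i => e' (e.symm (e x)) i) = e' x := by rw [e.left_inv he.2]
  have h3 := fderiv_comp (𝕜 := ℂ) (e x) (g := fun z i => g i (e'.symm z))
    (f := fun z i => e' (e.symm z) i) (by rw [h2]; exact (an_vec he' h).differentiableAt)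
    (an_vec he (hol_chart he')).differentiableAt
  rw [jd_eq, jd_eq, jd_eq, h1.fderiv_eq, h3, h2]
  exact LinearMap.det_comp _ _

theorem tr_ne (he : At e x) (he' : At e' x) : jd (fun i y => e' y i) e x ≠ 0 := by
  have h := jd_chart he he' (hol_chart he)
  rw [jd_self he] at h
  exact right_ne_zero_of_mul (h ▸ one_ne_zero)

theorem jd_ne_iff (he : At e x) (he' : At e' x) (h : ∀ i, Hol n (g i) x) :
    jd g e x ≠ 0 ↔ jd g e' x ≠ 0 := by
  rw [jd_chart he he' h, mul_ne_zero_iff, and_iff_left (tr_ne he he')]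

/-- the Jacobian of quotients -/
theorem jd_frac (he : At e x) (hu : ∀ i, Hol n (u i) x) (hv : ∀ i, Hol n (v i) x)
    (h0 : ∀ i, ¬∀ᶠ y in 𝓝 x, v i y = 0) (h : ∀ i, ∀ᶠ y in gen {x}, g i y * v i y = u i y) :
    ∃ D, Hol n D x ∧ ∀ᶠ y in gen {x}, jd g e y * ∏ i, v i y ^ 2 = D y := by
  refine ⟨fun y => (Matrix.of fun i j => v i (e.symm (e y)) * Val.pd j (fun z => u i (e.symm z))
    (e y) - u i (e.symm (e y)) * Val.pd j (fun z => v i (e.symm z)) (e y)).det,
    hol_of_an he (a := fun w => (Matrix.of fun i j => v i (e.symm w) *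
      Val.pd j (fun z => u i (e.symm z)) w - u i (e.symm w) *
        Val.pd j (fun z => v i (e.symm z)) w).det) (Val.an_det fun i j =>
      ((hv i e he).mul (Val.an_pd (hu i e he) j)).sub
        ((hu i e he).mul (Val.an_pd (hv i e he) j))), ?_⟩
  filter_upwards [gen_of_nhds (ev_at he), eventually_all.2 fun i => gen_interior (h i),
    eventually_all.2 fun i => hol_gen_ne (hv i) (h0 i),
    gen_of_nhds (eventually_all.2 fun i => (hu i).near),
    gen_of_nhds (eventually_all.2 fun i => (hv i).near)] with y h1 h2 h3 h4 h5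
  have h6 : ∀ i, Hol n (g i) y := fun i => (hol_div (h4 i) (h5 i) (h3 i)).congr (by
    filter_upwards [h2 i, hol_ne (h5 i) (h3 i)] with z k1 k2
    rw [← k1, mul_div_cancel_right₀ _ k2])
  rw [jd_det h1 h6, mul_comm, ← Matrix.det_mul_column]
  congr 1
  ext i j
  have h7 := Val.pd_mul (h6 i e h1).differentiableAt (h5 i e h1).differentiableAt j
  rw [Val.pd_congr (f' := fun z => u i (e.symm z)) ((tendsto_symm h1).eventually (h2 i))] at h7
  simp only [Matrix.of_apply, h7, e.left_inv h1.2, ← (h2 i).self_of_nhds]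
  ring

theorem jd_mer (he : At e x) (h : ∀ i, Mer n (g i) x) : Mer n (jd g e) x := by
  choose u v hu hv h0 h using h
  obtain ⟨D, hD, k⟩ := jd_frac he hu hv h0 h
  refine ⟨D, _, hD, hol_prod _ fun i _ => hol_pow (hv i) 2, not_zero_of_gen ?_, k⟩
  exact (eventually_all.2 fun i => hol_gen_ne (hv i) (h0 i)).mono fun y hy =>
    Finset.prod_ne_zero_iff.2 fun i _ => pow_ne_zero 2 (hy i)

theorem gen_hol (h : ∀ i, Mer n (g i) x) : ∀ᶠ y in gen {x}, ∀ i, Hol n (g i) y :=
  eventually_all.2 fun i => (mer_gen_hol (h i)).mono fun _ ⟨_, h1, h2⟩ =>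
    h1.congr (h2.mono fun _ => Eq.symm)

/-- the quotient of two Jacobians -/
def quo (g t : Fin n → W → ℂ) (y : W) : ℂ :=
  jd g (chartAt (Cm n) y) y / jd t (chartAt (Cm n) y) y

theorem quo_eq {t : Fin n → W → ℂ} (he : At e x) (hg : ∀ i, Mer n (g i) x)
    (ht : ∀ i, Mer n (t i) x) : ∀ᶠ y in gen {x}, quo g t y = jd g e y / jd t e y := by
  filter_upwards [gen_of_nhds (ev_at he), gen_hol hg, gen_hol ht] with y h1 h2 h3
  rw [quo, jd_chart (at_chartAt y) h1 h2, jd_chart (at_chartAt y) h1 h3,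
    mul_div_mul_right _ _ (tr_ne (at_chartAt y) h1)]

theorem quo_mer {t : Fin n → W → ℂ} (hg : ∀ i, Mer n (g i) x) (ht : ∀ i, Mer n (t i) x) :
    Mer n (quo g t) x :=
  mer_congr (mer_div (jd_mer (at_chartAt x) hg) (jd_mer (at_chartAt x) ht))
    ((quo_eq (at_chartAt x) hg ht).mono fun _ => Eq.symm)

end Jc

end Lo

namespace Mdl

open Lo Lo.Jc

variable {n N : ℕ} {K : Type} [Field K] [Algebra ℂ K] (M : Mdl n N K) {x : M.F}
  {g t s : Fin n → K} {j k : K}

theorem coord_jd_hol (h : M.Coord x t) {e : Chart n M.W} (he : At e x) :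
    Hol n (jd (fun i => M.val (t i)) e) x := jd_hol he fun i => (h.1 i).1

/-- the Jacobian of `t` is generically not zero everywhere if this holds at one point -/
theorem jd_gen_ne_of {e : Chart n M.W} (he : At e x)
    (h : ∀ᶠ y in gen {(x : M.W)}, jd (fun i => M.val (t i)) e y ≠ 0) {x' : M.W} (hx' : x' ∈ M.F)
    {e' : Chart n M.W} (he' : At e' x') :
    ∀ᶠ y in gen {x'}, jd (fun i => M.val (t i)) e' y ≠ 0 := by
  have hm : ∀ z ∈ M.F, ∀ i, Mer n (M.val (t i)) z := fun z hz i => M.mer _ z hz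
  rcases mer_ident_conn M.conn.isPreconnected fun z hz => quo_mer (hm z hz) (hm z hz) with k | k
  · obtain ⟨y, h1, h2, h3⟩ :=
      (h.and ((M.at_pt k x).and (quo_eq he (hm x x.2) (hm x x.2)))).exists
    rw [h2, div_self h1] at h3
    exact absurd h3 zero_ne_one
  · filter_upwards [gen_iff.1 k x' hx', quo_eq he' (hm x' hx') (hm x' hx')] with y h1 h2 h3
    rw [h3, div_zero] at h2
    exact h1 h2

theorem coord_gen_ne (h : M.Coord x t) {x' : M.W} (hx' : x' ∈ M.F) {e' : Chart n M.W}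
    (he' : At e' x') : ∀ᶠ y in gen {x'}, jd (fun i => M.val (t i)) e' y ≠ 0 :=
  M.jd_gen_ne_of (at_chartAt _) (gen_of_nhds (hol_ne (M.coord_jd_hol h (at_chartAt _))
    (h.2 _ (at_chartAt _)))) hx' he'

theorem jac_exists (h : M.Coord x t) (g : Fin n → K) : ∃ j, M.Jac g t j := by
  have hm : ∀ (t : Fin n → K), ∀ z ∈ M.F, ∀ i, Mer n (M.val (t i)) z :=
    fun t z hz i => M.mer _ z hz
  obtain ⟨j, hj⟩ := M.surj _ fun z hz => quo_mer (hm g z hz) (hm t z hz)
  refine ⟨j, fun z hz e he => ?_⟩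
  filter_upwards [gen_iff.1 hj z hz, quo_eq he (hm g z hz) (hm t z hz), M.coord_gen_ne h hz he]
    with y h1 h2 h3
  rw [h1, h2, div_mul_cancel₀ _ h3]

theorem jac_unique (h : M.Coord x t) (h1 : M.Jac g t j) (h2 : M.Jac g t k) : j = k := by
  refine M.eq_of_val x ?_
  filter_upwards [h1 x x.2 _ (at_chartAt _), h2 x x.2 _ (at_chartAt _),
    M.coord_gen_ne h x.2 (at_chartAt _)] with y k1 k2 k3
  exact mul_right_cancel₀ k3 (k1.symm.trans k2)

theorem jac_trans (h1 : M.Jac g t j) (h2 : M.Jac t s k) : M.Jac g s (j * k) := fun z hz e he => by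
  filter_upwards [h1 z hz e he, h2 z hz e he, gen_iff.1 (M.val_mul j k) z hz] with y k1 k2 k3
  rw [k1, k2, k3, mul_assoc]

theorem jac_self (t : Fin n → K) : M.Jac t t 1 := fun z hz e he =>
  .of_forall fun y => by rw [M.val_one, one_mul]

/-- a Jacobian identity holds everywhere if it holds at one point -/
theorem jac_of_pt (h : M.Coord x t) {x' : M.F} {e : Chart n M.W} (he : At e x')
    (hj : ∀ᶠ y in gen {(x' : M.W)},
      jd (fun i => M.val (g i)) e y = M.val j y * jd (fun i => M.val (t i)) e y) :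
    M.Jac g t j := by
  obtain ⟨k, hk⟩ := M.jac_exists h g
  have : k = j := by
    refine M.eq_of_val x' ?_
    filter_upwards [hk x' x'.2 e he, hj, M.coord_gen_ne h x'.2 he] with y k1 k2 k3
    exact mul_right_cancel₀ k3 (k1.symm.trans k2)
  exact this ▸ hk

theorem jd_shift (t : Fin n → K) (c : Fin n → ℂ) {z : M.W} (hz : z ∈ M.F) {e : Chart n M.W}
    (he : At e z) : ∀ᶠ y in gen {z}, jd (fun i => M.val (t i - algebraMap ℂ K (c i))) e y =
      jd (fun i => M.val (t i)) e y := by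
  filter_upwards [gen_of_nhds (ev_at he), eventually_all.2 fun i =>
    gen_interior (gen_iff.1 (M.val_sub (t i) (algebraMap ℂ K (c i))) z hz)] with y h1 h2
  rw [← jd_sub_const (fun i => M.val (t i)) c]
  exact jd_congr h1 fun i => (h2 i).mono fun w hw => by rw [hw, M.val_const]

theorem jac_shift (c : Fin n → ℂ) :
    M.Jac g (fun i => t i - algebraMap ℂ K (c i)) j ↔ M.Jac g t j :=
  forall₄_congr fun z hz e he => eventually_congr ((M.jd_shift t c hz he).mono fun y hy => by
    rw [hy])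

theorem jac_shift' (c : Fin n → ℂ) :
    M.Jac (fun i => g i - algebraMap ℂ K (c i)) t j ↔ M.Jac g t j :=
  forall₄_congr fun z hz e he => eventually_congr ((M.jd_shift g c hz he).mono fun y hy => by
    rw [hy])

/-- coordinates at `x` give coordinates at the points near `x` -/
theorem coord_shift (h : M.Coord x t) :
    ∀ᶠ y in 𝓝 x, M.Coord y fun i => t i - algebraMap ℂ K (M.val (t i) y) := by
  have he := at_chartAt (n := n) (x : M.W)
  filter_upwards [eventually_all.2 fun i => M.O_near (h.1 i).1,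
    continuousAt_subtype_val.eventually (ev_at he),
    continuousAt_subtype_val.eventually (hol_ne (M.coord_jd_hol h he) (h.2 _ he))]
    with y h1 h2 h3
  have h4 : ∀ i, algebraMap ℂ K (M.val (t i) y) ∈ M.O y := fun i => algebraMap_mem _ _
  refine ⟨fun i => ⟨sub_mem (h1 i) (h4 i), ?_⟩, fun e he' => ?_⟩
  · rw [M.val_sub_at (h1 i) (h4 i), M.val_const, sub_self]
  · rw [jd_congr he' (g' := fun i w => M.val (t i) w - M.val (t i) y) fun i =>
      (M.nhds_sub (h1 i) (h4 i)).mono fun w hw => by rw [hw, M.val_const], jd_sub_const]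
    exact (jd_ne_iff he' h2 h1).2 h3

/-- the Jacobian of quotients with respect to coordinates -/
theorem jac_den (h : M.Coord x t) (hj : M.Jac g t j) {b : Fin n → K} (hb : ∀ i, b i ∈ M.O x)
    (h0 : ∀ i, b i ≠ 0) (hg : ∀ i, b i * g i ∈ M.O x) : (∏ i, b i ^ 2) * j ∈ M.O x := by
  have he := at_chartAt (n := n) (x : M.W)
  obtain ⟨D, hD, k⟩ := jd_frac (g := fun i => M.val (g i)) he hg hb (fun i => M.not_zero (h0 i))
    fun i => (M.at_pt (M.val_mul (b i) (g i)) x).mono fun y hy => by rw [hy, mul_comm]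
  refine M.mem_O_of (hol_div hD (M.coord_jd_hol h he) (h.2 _ he)) ?_
  filter_upwards [k, hj x x.2 _ he, M.coord_gen_ne h x.2 he, M.at_pt (M.val_mul (∏ i, b i ^ 2) j) x,
    M.at_pt (M.val_prod Finset.univ fun i => b i ^ 2) x,
    eventually_all.2 fun i => M.at_pt (M.val_pow (b i) 2) x] with y k1 k2 k3 k4 k5 k6
  rw [eq_div_iff k3, ← k1, k2, k4, k5, Finset.prod_congr rfl fun i _ => k6 i]
  ring

theorem jac_mem (h : M.Coord x t) (hj : M.Jac g t j) (hg : ∀ i, g i ∈ M.O x) : j ∈ M.O x := by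
  simpa using M.jac_den h hj (b := fun _ => 1) (fun _ => one_mem _) (fun _ => one_ne_zero)
    fun i => by simpa using hg i

theorem jac_mem_ring {P : Place K} (hP : M.On x P) (h : M.Coord x t) (hj : M.Jac g t j)
    (hg : ∀ i, g i ∈ P.ring) : j ∈ P.ring := by
  obtain ⟨τ, hτ⟩ := hP
  choose b h1 h2 h3 h4 using fun i => hτ.loc _ (hg i)
  have h5 := hτ.le _ (M.jac_den h hj h1 h2 h4)
  have h6 : (∏ i, b i ^ 2)⁻¹ ∈ P.ring := by
    rw [← Finset.prod_inv_distrib]
    refine prod_mem fun i _ => ?_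
    rw [← inv_pow]
    exact pow_mem ((P297Z.Pl.ord_eq_zero_iff P (h2 i)).1 (h3 i)).2 2
  have h7 := mul_mem h6 h5
  rwa [inv_mul_cancel_left₀ (Finset.prod_ne_zero_iff.2 fun i _ => pow_ne_zero 2 (h2 i))] at h7

theorem jac_ne {x' : M.F} (h : M.Coord x t) (h' : M.Coord x' s) (hk : M.Jac t s k) : k ≠ 0 := by
  obtain ⟨k', hk'⟩ := M.jac_exists h s
  exact right_ne_zero_of_mul_eq_one (M.jac_unique h' (M.jac_trans hk' hk) (M.jac_self s))

theorem jac_ord {x' : M.F} {P : Place K} (hP : M.On x P) (hP' : M.On x' P) (h : M.Coord x t)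
    (h' : M.Coord x' s) (hk : M.Jac t s k) : P.ord k = 0 := by
  obtain ⟨k', hk'⟩ := M.jac_exists h s
  have h1 := M.jac_unique h' (M.jac_trans hk' hk) (M.jac_self s)
  refine P297Z.Pl.ord_unit P (M.jac_mem_ring hP' h' hk fun i => hP.choose_spec.le _ (h.1 i).1) ?_
  rw [← eq_inv_of_mul_eq_one_left h1]
  exact M.jac_mem_ring hP h hk' fun i => hP'.choose_spec.le _ (h'.1 i).1

theorem jac_ne_of {x' : M.F} (h : M.Coord x t) (h' : M.Coord x' s) (hj : M.Jac g t j)
    (hk : M.Jac g s k) (h0 : j ≠ 0) : k ≠ 0 := by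
  obtain ⟨l, hl⟩ := M.jac_exists h s
  rintro rfl
  exact h0 ((M.jac_unique h hj (M.jac_trans hk hl)).trans (zero_mul l))

theorem jac_ord_eq {x' : M.F} {P : Place K} (hP : M.On x P) (hP' : M.On x' P) (h : M.Coord x t)
    (h' : M.Coord x' s) (hj : M.Jac g t j) (hk : M.Jac g s k) (h0 : j ≠ 0) :
    P.ord k = P.ord j := by
  obtain ⟨l, hl⟩ := M.jac_exists h' t
  rw [M.jac_unique h' hk (M.jac_trans hj hl), P297Z.Pl.ord_mul P h0 (M.jac_ne h h' hl),
    M.jac_ord hP hP' h h' hl, add_zero]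

end Mdl

namespace Lo

theorem jac : StJac := fun _ _ _ _ _ M _ _ g h => M.jac_exists h g

theorem can : StCan := by
  intro n N K _ _ M hc hf x₀ t₀ g j₀ h₀ hj₀ h0
  classical
  choose t ht using hc
  choose j hj using fun x => M.jac_exists (ht x) g
  have hne : ∀ x s k, M.Coord x s → M.Jac g s k → k ≠ 0 := fun x s k h hk =>
    M.jac_ne_of h₀ h hj₀ hk h0
  let c : Place K → ℝ := fun P => if h : M.Pr P then (P.ord (j h.choose) : ℝ) else 0
  have key : ∀ x s k, M.Coord x s → M.Jac g s k → ∀ P, M.On x P → c P = P.ord k :=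
    fun x s k h hk P hP => by
      have hP' : M.Pr P := ⟨x, hP⟩
      simp only [c, dif_pos hP']
      rw [M.jac_ord_eq hP hP'.choose_spec h (ht _) hk (hj _) (hne x s k h hk)]
  have hpr : ∀ P, c P ≠ 0 → M.Pr P := fun P h => by
    by_contra k
    exact h (dif_neg k)
  have hfin : (Function.support c).Finite := by
    have : CompactSpace M.F := isCompact_iff_compactSpace.1 M.cpt
    obtain ⟨T, -, hT⟩ := isCompact_univ.elim_nhds_subcover
      (fun x : M.F => {y | M.Coord y fun i => t x i - algebraMap ℂ K (M.val (t x i) y)})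
      fun x _ => M.coord_shift (ht x)
    refine (T.finite_toSet.biUnion fun x _ => hf (j x)).subset fun P hP => ?_
    obtain ⟨y, hy⟩ := hpr P hP
    obtain ⟨x, hx, h⟩ := mem_iUnion₂.1 (hT (mem_univ y))
    refine mem_biUnion hx ⟨⟨y, hy⟩, fun k => hP ?_⟩
    rw [key y _ _ h ((M.jac_shift _).2 (hj x)) P hy, k, Int.cast_zero]
  exact ⟨Finsupp.ofSupportFinite c hfin, fun P hP => hpr P (Finsupp.mem_support_iff.1 hP),
    fun x s k h hk => ⟨hne x s k h hk, key x s k h hk⟩⟩

end Lo

end Vale.Agent.P277Z
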