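import Vale.Agent.P277Z.Lo.Base

/-!
# P277Z, block LOC: the field of the germs of meromorphic functions
-/

set_option linter.all false

open scoped Manifold ContDiff Topology
open Set Filter
open Vale.Agent.P272.K (Cm Chart At)

noncomputable section

namespace Vale.Agent.P277Z

namespace Lo.Mk

variable {n N : ℕ} (G : Geo n N)

open Classical in
/-- the value of a holomorphic germ which agrees generically with `a`, if there is one -/
def nrm (a : G.W → ℂ) (y : G.W) : ℂ :=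
  if h : ∃ b, Hol n b y ∧ ∀ᶠ z in gen {y}, a z = b z then h.choose y else a y

variable {G} in
theorem nrm_eq {a b : G.W → ℂ} {y : G.W} (hb : Hol n b y) (h : ∀ᶠ z in gen {y}, a z = b z) :
    nrm G a y = b y := by
  have h1 : ∃ b, Hol n b y ∧ ∀ᶠ z in gen {y}, a z = b z := ⟨b, hb, h⟩
  rw [nrm, dif_pos h1]
  exact eq_of_gen (hol_cont h1.choose_spec.1) (hol_cont hb)
    ((h1.choose_spec.2.and h).mono fun _ k => k.1.symm.trans k.2)

variable {G} in
theorem nrm_gen {a : G.W → ℂ} (ha : ∀ x ∈ G.F, Mer n a x) : ∀ᶠ y in gen G.F, nrm G a y = a y :=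
  gen_iff.2 fun x hx => (mer_gen_hol (ha x hx)).mono fun _ ⟨_, h1, h2⟩ =>
    (nrm_eq h1 (gen_of_nhds h2)).trans h2.self_of_nhds.symm

instance : (gen G.F).NeBot :=
  let ⟨x, hx⟩ := G.conn.nonempty
  NeBot.mono (f := gen {x}) inferInstance (gen_le_of (by simpa using hx))

/-- the germs of meromorphic functions -/
def Sr : Subring (Germ (gen G.F) ℂ) where
  carrier := {f | ∃ a : G.W → ℂ, (∀ x ∈ G.F, Mer n a x) ∧ (a : Germ (gen G.F) ℂ) = f}
  mul_mem' := by
    rintro _ _ ⟨a, ha, rfl⟩ ⟨b, hb, rfl⟩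
    exact ⟨a * b, fun x hx => mer_mul (ha x hx) (hb x hx), rfl⟩
  one_mem' := ⟨1, fun _ _ => mer_of_hol (hol_const 1), rfl⟩
  add_mem' := by
    rintro _ _ ⟨a, ha, rfl⟩ ⟨b, hb, rfl⟩
    exact ⟨a + b, fun x hx => mer_add (ha x hx) (hb x hx), rfl⟩
  zero_mem' := ⟨0, fun _ _ => mer_of_hol (hol_const 0), rfl⟩
  neg_mem' := by
    rintro _ ⟨a, ha, rfl⟩
    exact ⟨-a, fun x hx => mer_neg (ha x hx), rfl⟩

theorem isField : IsField (Sr G) where
  exists_pair_ne := exists_pair_ne _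
  mul_comm := mul_comm
  mul_inv_cancel := by
    rintro ⟨_, a, ha, rfl⟩ h0
    have h1 := (mer_ident_conn G.conn.isPreconnected ha).resolve_left fun h =>
      h0 (Subtype.ext (Germ.coe_eq.2 h))
    exact ⟨⟨_, fun y => (a y)⁻¹, fun x hx => mer_inv (ha x hx), rfl⟩,
      Subtype.ext (Germ.coe_eq.2 (h1.mono fun y hy => mul_inv_cancel₀ hy))⟩

/-- the constants -/
def cst : ℂ →+* Sr G where
  toFun c := ⟨_, fun _ => c, fun _ _ => mer_of_hol (hol_const c), rfl⟩
  map_one' := rfl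
  map_mul' _ _ := rfl
  map_zero' := rfl
  map_add' _ _ := rfl

theorem exists_rep (f : Sr G) : ∃ a : G.W → ℂ, (∀ x ∈ G.F, Mer n a x) ∧
    (a : Germ (gen G.F) ℂ) = f ∧ ∀ c, f = cst G c → a = fun _ => c := by
  by_cases h : ∃ c, f = cst G c
  · obtain ⟨c, rfl⟩ := h
    exact ⟨fun _ => c, fun _ _ => mer_of_hol (hol_const c), rfl,
      fun c' h => by rw [(cst G).injective h]⟩
  · obtain ⟨a, h1, h2⟩ := f.2
    exact ⟨a, h1, h2, fun c hc => (h ⟨c, hc⟩).elim⟩

end Lo.Mk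

open Lo Lo.Mk in
theorem mk : MK := by
  intro n N G
  choose a h1 h2 h3 using exists_rep G
  have h4 : ∀ (f : Sr G) (b : G.W → ℂ), (b : Germ (gen G.F) ℂ) = f →
      ∀ᶠ y in gen G.F, nrm G (a f) y = b y := fun f b hb =>
    ((nrm_gen (h1 f)).and (Germ.coe_eq.1 ((h2 f).trans hb.symm))).mono fun _ k => k.1.trans k.2
  refine ⟨Sr G, (isField G).toField, (cst G).toAlgebra,
    @Mdl.mk n N (Sr G) (isField G).toField (cst G).toAlgebra G (fun f => nrm G (a f))
      (fun f g => ?_) (fun f g => ?_) (fun c y => ?_) (fun f x hx => ?_) (fun f => ?_)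
      (fun b hb => ?_), rfl⟩
  · filter_upwards [h4 (f + g) (a f + a g) (by rw [Germ.coe_add, h2, h2]; rfl), nrm_gen (h1 f),
      nrm_gen (h1 g)] with y k1 k2 k3
    rw [k2, k3]
    exact k1
  · filter_upwards [h4 (f * g) (a f * a g) (by rw [Germ.coe_mul, h2, h2]; rfl), nrm_gen (h1 f),
      nrm_gen (h1 g)] with y k1 k2 k3
    rw [k2, k3]
    exact k1
  · exact nrm_eq (hol_const c) (.of_forall fun z => congrFun (h3 _ c rfl) z)
  · exact mer_congr (h1 f x hx) ((gen_iff.1 (nrm_gen (h1 f)) x hx).mono fun _ => Eq.symm)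
  · filter_upwards [gen_nhdsSet (nrm_gen (h1 f))] with y k1 b k2 k3
    exact nrm_eq k2 ((k1.and k3).mono fun _ k => k.1.symm.trans k.2)
  · exact ⟨⟨_, b, hb, rfl⟩, h4 _ b rfl⟩

end Vale.Agent.P277Z
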