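import Vale.Agent.P277Z.Lo.Gn
import Vale.Agent.P277Z.Lo.Jac
import Vale.Agent.P277Z.Lo.Dv
import Vale.Agent.P277Z.Lo.CC
import Vale.Agent.P277Z.Lo.Mk

/-!
# P277Z, block LOC: finiteness, coordinates, the theorems
-/

set_option linter.all false

open scoped Manifold ContDiff Topology
open Set Filter Asymptotics
open Vale.Agent.P272.K (Cm Chart At)
open Vale.Agent.P297 (Place)
open Vale.Agent.P297Z

noncomputable section

namespace Vale.Agent.P277Z.Lo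

theorem hasF_of {E : Type} [NormedAddCommGroup E] [NormedSpace ℂ E] {f g : E → ℂ} {x : E}
    {g' : E →L[ℂ] ℂ} (h : (fun z => f z - g z) =o[𝓝 x] fun z => ‖z - x‖ ^ 1)
    (hg : HasFDerivAt g g' x) : f x = g x ∧ HasFDerivAt f g' x := by
  have h0 : f x - g x = 0 := by simpa using (h.def one_pos).self_of_nhds
  have k : HasFDerivAt (fun z => f z - g z) (0 : E →L[ℂ] ℂ) x :=
    hasFDerivAt_iff_isLittleO.2 (by simpa [h0] using h)
  exact ⟨sub_eq_zero.1 h0, by simpa using k.fun_add hg⟩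

theorem sep_pl {K : Type} [Field K] (Q P : Place K) :
    ∃ g : K, g ≠ 0 ∧ 0 < Q.ord g ∧ (P ≠ Q → ¬ 0 < P.ord g) := by
  by_cases e : P = Q
  · obtain ⟨g, h0, h1⟩ := Pl.exists_ord_eq_one Q
    exact ⟨g, h0, by omega, fun k => (k e).elim⟩
  by_contra! h
  refine e (Pl.eq_of_le' fun f hf => by_contra fun k => ?_)
  have f0 : f ≠ 0 := fun e => k (e ▸ zero_mem _)
  have h1 := (h f⁻¹ (inv_ne_zero f0) (Pl.ord_pos_of_inv_notMem Q (by rwa [inv_inv]))).2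
  have h2 := Pl.ord_nonneg_of_mem P hf
  rw [Pl.ord_inv] at h1
  omega

variable {n N : ℕ} {K : Type} [Field K] [Algebra ℂ K] {M : Mdl n N K} {x y : M.F} {a b f t : K}
  {P Q : Place K}

variable (hJ : JET) (hP : M.Proj)
include hJ hP

theorem coord (x : M.F) : ∃ t, M.Coord x t := by
  obtain ⟨A, hA⟩ := (M.toGeo.proj_iff).1 hP
  obtain ⟨m, h⟩ := hJ n N _ A _ hA (lb_triv M.toGeo) x x.2 x x.2 1
  have hB := lb_mul (lb_triv M.toGeo) (lb_pow hA.choose_spec.1 m)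
  obtain ⟨i, hi⟩ := hB.cover x x.2
  have he := at_chartAt (n := n) (x : M.W)
  obtain ⟨s₀, a1, a2, -⟩ := h m le_rfl i hi _ (hol_const 1)
  choose s b1 b2 _ using fun j : Fin n => h m le_rfl i hi _
    (hol_sub (Jc.hol_chart he j) (hol_const (chartAt (Cm n) x.1 x j)))
  have c0 := (hasF_of (a2 _ he) (hasFDerivAt_const _ _)).1
  have c1 := fun j => hasF_of (b2 j _ he) (g' := ContinuousLinearMap.proj j)
    (((ContinuousLinearMap.proj (R := ℂ) (φ := fun _ => ℂ) j).hasFDerivAt.sub_const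
      (chartAt (Cm n) x.1 x j)).congr_of_eventuallyEq ((At.right he).mono fun z hz => by simp [hz]))
  simp only [OpenPartialHomeomorph.left_inv _ he.2, sub_self] at c0 c1
  have s0 : s₀ i x ≠ 0 := c0 ▸ one_ne_zero
  choose t ht using fun j => quo hB (b1 j) a1 x.2 hi (nz_of_ne s0)
  have k1 := fun j => hol_div (sec_hol (b1 j) x.2 hi) (sec_hol a1 x.2 hi) s0
  have k2 := fun j => M.mem_O_of (k1 j) (ht j x i hi)
  refine ⟨t, fun j => ⟨k2 j, ?_⟩, fun e he' => (Jc.jd_ne_iff he' he k2).2 ?_⟩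
  · rw [M.val_eq_at (k1 j) (ht j x i hi), (c1 j).1, zero_div]
  · rw [Jc.jd_congr he fun j => M.val_eq x.2 (k1 j) (ht j x i hi), Jc.jd_eq]
    have d := (hol_inv (sec_hol a1 x.2 hi) s0 _ he).differentiableAt.hasFDerivAt
    have : HasFDerivAt (fun z j => s j i ((chartAt (Cm n) x.1).symm z) /
        s₀ i ((chartAt (Cm n) x.1).symm z)) (ContinuousLinearMap.id ℂ (Cm n))
        (chartAt (Cm n) x.1 x) := hasFDerivAt_pi'.2 fun j => by
      simp only [div_eq_mul_inv]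
      refine ((c1 j).2.fun_mul d).congr_fderiv (ContinuousLinearMap.ext fun v => ?_)
      simp [OpenPartialHomeomorph.left_inv _ he.2, (c1 j).1, c0]
    rw [this.fderiv]
    exact (LinearMap.det_id (A := ℂ) (M := Cm n)).trans_ne one_ne_zero

theorem sep (h : x ≠ y) : ∃ f ∈ M.O x, f ∈ M.O y ∧ M.val f x ≠ M.val f y := by
  obtain ⟨A, hA⟩ := (M.toGeo.proj_iff).1 hP
  obtain ⟨m₁, h1⟩ := jet0 hJ hA (lb_triv M.toGeo) x.2 y.2
  obtain ⟨m₂, h2⟩ := jet0 hJ hA (lb_triv M.toGeo) y.2 x.2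
  obtain ⟨m, hm1, hm2⟩ : ∃ m, m₁ ≤ m ∧ m₂ ≤ m := ⟨_, le_max_left m₁ m₂, le_max_right m₁ m₂⟩
  obtain ⟨s, a1, a2, a3⟩ := h1 m hm1
  obtain ⟨s', b1, b2, b3⟩ := h2 m hm2
  have hB := lb_mul (lb_triv M.toGeo) (lb_pow hA.choose_spec.1 m)
  obtain ⟨i, hi⟩ := hB.cover x x.2
  obtain ⟨j, hj⟩ := hB.cover y y.2
  have e1 := b3 (fun e => h (Subtype.ext e)) i hi
  have e2 := a3 (fun e => h (Subtype.ext e.symm)) j hj
  have hs := sec_add a1 b1
  have c1 : s i x + s' i x ≠ 0 := by simpa [e1] using a2 i hi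
  have c2 : s j y + s' j y ≠ 0 := by simpa [e2] using b2 j hj
  obtain ⟨f, hf⟩ := quo hB a1 hs x.2 hi (nz_of_ne c1)
  have k1 := hol_div (sec_hol a1 x.2 hi) (sec_hol hs x.2 hi) c1
  have k2 := hol_div (sec_hol a1 y.2 hj) (sec_hol hs y.2 hj) c2
  refine ⟨f, M.mem_O_of k1 (hf x i hi), M.mem_O_of k2 (hf y j hj), ?_⟩
  rw [M.val_eq_at k1 (hf x i hi), M.val_eq_at k2 (hf y j hj), e2, zero_div]
  exact div_ne_zero (a2 i hi) c1

theorem cut1 (ha : a ∈ M.O x) (a0 : a ≠ 0) {g : K} (g0 : g ≠ 0) : ∃ e ∈ M.O x, e ≠ 0 ∧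
    a / e ∈ M.O x ∧ ∀ᶠ y in 𝓝 x, ∀ P, M.On y P → (0 < P.ord e ↔ 0 < P.ord a ∧ 0 < P.ord g) := by
  obtain ⟨b, b0, k⟩ := den hJ hP g x x
  obtain ⟨h1, h2, h3⟩ := k x (.inl rfl)
  obtain ⟨d, s, a', k1, k2, k3, e1, e2, k4⟩ := gcd hJ hP h2 ha a0
  have d0 : d ≠ 0 := left_ne_zero_of_mul (e2 ▸ a0)
  have a1 : a' ≠ 0 := right_ne_zero_of_mul (e2 ▸ a0)
  have s0 : s ≠ 0 := right_ne_zero_of_mul (e1 ▸ mul_ne_zero b0 g0)
  refine ⟨d, k1, d0, by rwa [e2, mul_div_cancel_left₀ _ d0], ?_⟩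
  filter_upwards [M.O_near h1, M.O_near h2, M.O_near k1, M.O_near k2, M.O_near k3,
    continuousAt_subtype_val.eventually h3, continuousAt_subtype_val.eventually k4]
    with y c1 c2 c3 c4 c5 c6 c7 P ⟨t, ht⟩
  have o1 := Pl.ord_mul P b0 g0
  have o2 := Pl.ord_mul P d0 s0
  have o3 := Pl.ord_mul P d0 a1
  rw [← e1] at o2
  rw [← e2] at o3
  have o4 := cop_ord ht c2 c1 b0 c6
  have o5 := cop_ord ht c4 c5 a1 c7
  have := gn_nonneg ht c1
  have := gn_nonneg ht c3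
  have := gn_nonneg ht c4
  have := gn_nonneg ht c5
  refine ⟨fun h => ⟨by omega, by_contra fun h' => o4 (by omega) (by omega)⟩,
    fun h => by_contra fun h' => o5 (by omega) (by omega)⟩

theorem cut (ha : a ∈ M.O x) (a0 : a ≠ 0) {ι : Type} {S : Set ι} (hS : S.Finite) {g : ι → K}
    (g0 : ∀ i, g i ≠ 0) : ∃ e ∈ M.O x, e ≠ 0 ∧ a / e ∈ M.O x ∧ ∀ᶠ y in 𝓝 x, ∀ P, M.On y P →
      (0 < P.ord e ↔ 0 < P.ord a ∧ ∀ i ∈ S, 0 < P.ord (g i)) := by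
  induction S, hS using Set.Finite.induction_on with
  | empty => exact ⟨a, ha, a0, by rw [div_self a0]; exact one_mem _, .of_forall fun _ _ _ => by simp⟩
  | @insert i S _ _ ih =>
    obtain ⟨e, h1, h2, h3, h4⟩ := ih
    obtain ⟨e', k1, k2, k3, k4⟩ := cut1 hJ hP h1 h2 (g0 i)
    refine ⟨e', k1, k2, ?_, ?_⟩
    · rw [show a / e' = a / e * (e / e') by field_simp]
      exact mul_mem h3 k3
    · filter_upwards [h4, k4] with y c1 c2 P hP'
      rw [c2 P hP', c1 P hP', forall_mem_insert]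
      tauto

theorem fin_pt (ha : a ∈ M.O x) (a0 : a ≠ 0) : {P | M.On x P ∧ 0 < P.ord a}.Finite := by
  haveI := wf M x
  have key : ∀ a : M.O x, (a : K) ≠ 0 → {P | M.On x P ∧ 0 < P.ord (a : K)}.Finite := fun a => by
    induction a using WfDvdMonoid.induction_on_irreducible with
    | zero => exact fun h => (h rfl).elim
    | unit u hu =>
      exact fun _ => finite_empty.subset fun P ⟨⟨t, ht⟩, h⟩ =>
        (M.isUnit_iff u).1 hu (gn_van ht u.2 h)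
    | mul a i a0 hi ih =>
      intro h0
      have a1 : (a : K) ≠ 0 := right_ne_zero_of_mul h0
      obtain ⟨Q, hQ⟩ := gn_of_prime hJ hP (prime_of hJ hP hi)
      refine ((ih a1).insert Q).subset fun P ⟨h1, h2⟩ => or_iff_not_imp_left.2 fun k => ⟨h1, ?_⟩
      rwa [Subalgebra.coe_mul, Pl.ord_mul P (gn_ne hQ) a1, other hJ hP hQ h1 k, zero_add] at h2
  exact key ⟨a, ha⟩ a0

theorem fin_loc (ha : a ∈ M.O x) (a0 : a ≠ 0) :
    ∃ Φ : Set (Place K), Φ.Finite ∧ ∀ᶠ y in 𝓝 x, ∀ Q, M.On y Q → 0 < Q.ord a → Q ∈ Φ := by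
  have hF := M.fib.filter_mono (nhds_le_nhdsSet x.2)
  obtain ⟨T, hT, h⟩ := dv cc n M.W (Fin N) x (fun i y => M.π y i) (M.val a) (M.hol x x.2) ha
    (M.not_zero a0) _ ((Hol.near ha).and hF.eventually_nhds)
  let Φ : Set (Place K) :=
    ⋃ p ∈ T, {P | ∃ hp : p ∈ M.F, a ∈ M.O ⟨p, hp⟩ ∧ M.On ⟨p, hp⟩ P ∧ 0 < P.ord a}
  have hΦ : Φ.Finite := hT.biUnion fun p _ => by
    by_cases k : ∃ hp : p ∈ M.F, a ∈ M.O ⟨p, hp⟩
    · exact (fin_pt hJ hP k.2 a0).subset fun P ⟨_, k⟩ => k.2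
    · exact finite_empty.subset fun P ⟨hp, k'⟩ => k ⟨hp, k'.1⟩
  refine ⟨Φ, hΦ, ?_⟩
  filter_upwards [continuousAt_subtype_val.eventually (h.and hF)] with y ⟨h1, h2⟩ Q q1 q2
  by_contra q3
  choose g g0 g1 g2 using sep_pl Q
  obtain ⟨p, p1, p2, -, hp, P, p3, p4, p5⟩ := h1
    {w | ∃ hw : w ∈ M.F, ∃ P, M.On ⟨w, hw⟩ P ∧ 0 < P.ord a ∧ ∀ R ∈ Φ, 0 < P.ord (g R)}
    (fun z hz z0 => by
      have zF : z ∈ M.F := hz.2.self_of_nhds.1 (funext z0)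
      obtain ⟨e, e1, e0, e2, e3⟩ := cut hJ hP (x := ⟨z, zF⟩) hz.1 a0 hΦ g0
      have e4 := e3.and (M.O_near e1)
      rw [nhds_subtype_eq_comap, eventually_comap] at e4
      refine ⟨_, _, e1, e2, ?_⟩
      filter_upwards [e4, hz.2, M.nhds_mul e1 e2] with w c1 c2 c3
      refine ⟨by rwa [mul_div_cancel₀ _ e0] at c3, fun w0 => ?_⟩
      have wF : w ∈ M.F := c2.1 (funext w0)
      obtain ⟨c4, c5⟩ := c1 ⟨w, wF⟩ rfl
      refine ⟨fun ⟨_, P, ⟨t, ht⟩, k⟩ => gn_van ht c5 ((c4 P ⟨t, ht⟩).2 k), fun k => ?_⟩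
      obtain ⟨P, k1, k2⟩ := van hJ hP c5 e0 k
      exact ⟨wF, P, k1, (c4 P k1).1 k2⟩)
    (congrFun (h2.2 y.2)) ⟨y.2, Q, q1, q2, fun R _ => g1 R⟩
  have k : P ∈ Φ := mem_biUnion p1 ⟨hp, p2.1, p3, p4⟩
  exact g2 P (fun e => q3 (e ▸ k)) (p5 P k)

theorem fin (f : K) : {P | M.Pr P ∧ P.ord f ≠ 0}.Finite := by
  by_cases f0 : f = 0
  · exact finite_empty.subset fun P h => h.2 (by simp [f0])
  have key : ∀ x : M.F, ∃ Φ : Set (Place K), Φ.Finite ∧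
      ∀ᶠ y in 𝓝 x, ∀ Q, M.On y Q → Q.ord f ≠ 0 → Q ∈ Φ := fun x => by
    obtain ⟨b, h1, b0, h2⟩ := frac hJ hP x f
    obtain ⟨Φ, a1, a2⟩ := fin_loc hJ hP h1 b0
    obtain ⟨Φ', b1, b2⟩ := fin_loc hJ hP h2 (mul_ne_zero b0 f0)
    refine ⟨_, a1.union b1, ?_⟩
    filter_upwards [a2, b2, M.O_near h1, M.O_near h2] with y c1 c2 c3 c4 Q ⟨t, ht⟩ k
    have := Pl.ord_mul Q b0 f0
    have := gn_nonneg ht c3
    have := gn_nonneg ht c4
    by_cases e : 0 < Q.ord b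
    exacts [.inl (c1 Q ⟨t, ht⟩ e), .inr (c2 Q ⟨t, ht⟩ (by omega))]
  choose Φ h1 h2 using key
  haveI := isCompact_iff_compactSpace.1 M.cpt
  obtain ⟨S, -, hS⟩ := isCompact_univ.elim_nhds_subcover _ fun x _ => h2 x
  refine (S.finite_toSet.biUnion fun x _ => h1 x).subset fun P ⟨⟨y, hy⟩, k⟩ => ?_
  obtain ⟨x, hx, k'⟩ := mem_iUnion₂.1 (hS (mem_univ y))
  exact mem_biUnion hx (k' P hy k)

theorem near_gn (h : M.Gn x P t) :
    ∀ᶠ y in 𝓝 x, (M.On y P → M.Gn y P t) ∧ (¬ M.On y P → M.val t y ≠ 0) := by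
  have t0 := gn_ne h
  filter_upwards [(fin hJ hP t).eventually_all.2 fun Q _ => near hJ hP x Q, M.O_near h.mem]
    with y h1 h2
  have key : ∀ Q, M.On y Q → Q ≠ P → Q.ord t = 0 := fun Q hQ ne => by_contra fun k =>
    k (other hJ hP h (h1 Q ⟨⟨y, hQ⟩, k⟩ hQ) ne)
  refine ⟨fun ⟨s, hs⟩ => ?_, fun k e => ?_⟩
  · have k : s / t ∈ M.O y := mem hJ hP fun Q hQ => by
      rw [Pl.ord_div Q (gn_ne hs) t0]
      by_cases e : Q = P
      · rw [e, hs.ord, h.ord, sub_self]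
      · rw [key Q hQ e, other hJ hP hs hQ e, sub_self]
    refine ⟨h2, gn_van hs h2 (by rw [h.ord]; exact one_pos), h.ord, hs.le, fun f hf k' => ?_, hs.loc⟩
    have s0 := gn_ne hs
    rw [show f / t = f / s * (s / t) by field_simp]
    exact mul_mem (hs.dvd f hf k') k
  · obtain ⟨Q, hQ, k'⟩ := van hJ hP h2 t0 e
    exact k'.ne' (key Q hQ fun e => k (e ▸ hQ))

theorem locM : Loc M where
  frac := frac hJ hP
  inv _ _ := M.inv_mem
  mem _ _ := mem hJ hP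
  van _ _ := van hJ hP
  other _ _ _ _ := other hJ hP
  fin := fin hJ hP
  near := near hJ hP
  near_gn _ _ _ := near_gn hJ hP
  red _ _ _ h a ha k :=
    let ⟨b, hb, e⟩ := red hJ hP h a ha k
    ⟨b, hb, e.mono fun _ h => h.trans (mul_comm _ _)⟩
  coord := coord hJ hP
  sep _ _ := sep hJ hP
  ctr _ y _ h _ _ := ctr hJ hP h y
  jac := jac n N K M
  can := can n N K M (coord hJ hP) (fin hJ hP)

end Lo

/-- **LOC** -/
theorem loc (hJ : JET) (n : ℕ) : LOC n := fun _ _ _ _ _ hP => Lo.locM hJ hP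

/-- **COP** -/
theorem cop (hJ : JET) (n : ℕ) : COP n := fun _ _ _ _ _ hP => Lo.copM hJ hP

end Vale.Agent.P277Z
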