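import Vale.Agent.P277Z.Lo.Sk
import Vale.Agent.P277Z.Luf.Hol

/-!
# P277Z, block LOC: quotients of sections, equations of divisors
-/

set_option linter.all false

open scoped Manifold ContDiff Topology
open Set Filter Asymptotics
open Vale.Agent.P272.K (Cm Chart At)
open Vale.Agent.P285.H281.FD (Bd)

noncomputable section

namespace Vale.Agent.P277Z.Lo

theorem conn_gen {W : Type} [TopologicalSpace W] {F : Set W} (hF : IsPreconnected F) {p : W → Prop}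
    (h : ∀ x ∈ F, (∀ᶠ y in gen {x}, p y) ∨ ∀ᶠ y in gen {x}, ¬ p y) :
    (∀ᶠ y in gen F, p y) ∨ ∀ᶠ y in gen F, ¬ p y := by
  have h := hF.subset_or_subset (u := {x | ∀ᶠ z in 𝓝 x, ∀ᶠ y in gen {z}, p y})
    (v := {x | ∀ᶠ z in 𝓝 x, ∀ᶠ y in gen {z}, ¬ p y}) isOpen_setOf_eventually_nhds
    isOpen_setOf_eventually_nhds (disjoint_left.2 fun x h1 h2 =>
      ((gen_of_near h1).and (gen_of_near h2)).exists.elim fun _ k => k.2 k.1)
    fun x hx => (h x hx).imp gen_near gen_near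
  exact h.imp (fun h => gen_iff.2 fun x hx => gen_of_near (h hx))
    fun h => gen_iff.2 fun x hx => gen_of_near (h hx)

section geo

variable {n N : ℕ} {G : Geo n N} {L L' A : Bd G.W}

theorem lb_mul (h : G.LB L) (h' : G.LB L') : G.LB (L.mul L') where
  isOpen i := (h.isOpen i.1).inter (h'.isOpen i.2)
  cover x hx :=
    let ⟨i, hi⟩ := h.cover x hx
    let ⟨j, hj⟩ := h'.cover x hx
    ⟨(i, j), hi, hj⟩
  holo i j x hi hj := hol_mul (h.holo _ _ x hi.1 hj.1) (h'.holo _ _ x hi.2 hj.2)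
  ne_zero i j x hi hj := mul_ne_zero (h.ne_zero _ _ x hi.1 hj.1) (h'.ne_zero _ _ x hi.2 hj.2)
  cocycle i j k x hi hj hk := by
    simp only [Bd.mul]
    rw [← h.cocycle i.1 j.1 k.1 x hi.1 hj.1 hk.1, ← h'.cocycle i.2 j.2 k.2 x hi.2 hj.2 hk.2]
    ring

theorem lb_pow (h : G.LB L) (m : ℕ) : G.LB (L.pow m) where
  isOpen := h.isOpen
  cover := h.cover
  holo i j x hi hj := hol_pow (h.holo i j x hi hj) m
  ne_zero i j x hi hj := pow_ne_zero m (h.ne_zero i j x hi hj)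
  cocycle i j k x hi hj hk := by
    simp only [Bd.pow]
    rw [← mul_pow, h.cocycle i j k x hi hj hk]

/-- the trivial bundle -/
def triv (W : Type) : Bd W := ⟨Unit, fun _ => univ, fun _ _ _ => 1⟩

theorem lb_triv (G : Geo n N) : G.LB (triv G.W) :=
  ⟨fun _ => isOpen_univ, fun _ _ => ⟨(), trivial⟩, fun _ _ _ _ _ => hol_const 1,
    fun _ _ _ _ _ => one_ne_zero, fun _ _ _ _ _ _ _ => one_mul 1⟩

variable {s s' : L.ι → G.W → ℂ} {x : G.W} {i : L.ι}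

theorem sec_near (hL : G.LB L) (hs : G.Sec L s) (hx : x ∈ G.F) (hi : x ∈ L.U i) :
    ∀ᶠ y in 𝓝 x, y ∈ L.U i ∧ Hol n (s i) y ∧ ∀ j, y ∈ L.U j → s j y = L.g j i y * s i y := by
  filter_upwards [hs.filter_mono (nhds_le_nhdsSet hx), (hL.isOpen i).mem_nhds hi] with y h1 h2
  exact ⟨h2, (h1 i h2).1, fun j hj => (h1 j hj).2 i h2⟩

theorem sec_hol (hs : G.Sec L s) (hx : x ∈ G.F) (hi : x ∈ L.U i) : Hol n (s i) x :=
  (hs.self_of_nhdsSet x hx i hi).1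

theorem sec_add (hs : G.Sec L s) (hs' : G.Sec L s') : G.Sec L fun i y => s i y + s' i y := by
  filter_upwards [hs, hs'] with y h1 h2 i hi
  refine ⟨hol_add (h1 i hi).1 (h2 i hi).1, fun j hj => ?_⟩
  rw [(h1 i hi).2 j hj, (h2 i hi).2 j hj, mul_add]

theorem sec_ne (hL : G.LB L) (hs : G.Sec L s) (hx : x ∈ G.F) (hi : x ∈ L.U i) (h : s i x ≠ 0)
    (j : L.ι) (hj : x ∈ L.U j) : s j x ≠ 0 := by
  rw [(hs.self_of_nhdsSet x hx j hj).2 i hi]
  exact mul_ne_zero (hL.ne_zero j i x hj hi) h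

/-- a section which is not zero at one point is nowhere locally zero -/
theorem sec_nz (hL : G.LB L) (hs : G.Sec L s) (hx : x ∈ G.F) (hi : x ∈ L.U i) (h : Nz (s i) x)
    {y : G.W} (hy : y ∈ G.F) {j : L.ι} (hj : y ∈ L.U j) : Nz (s j) y := by
  have key : ∀ x ∈ G.F, ∀ i, x ∈ L.U i →
      ∀ᶠ y in 𝓝 x, ((∀ j, y ∈ L.U j → s j y = 0) ↔ s i y = 0) := fun x hx i hi =>
    (sec_near hL hs hx hi).mono fun y k =>
      ⟨fun e => e i k.1, fun e j hj => by rw [k.2.2 j hj, e, mul_zero]⟩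
  have := conn_gen G.conn.isPreconnected (p := fun y => ∀ j, y ∈ L.U j → s j y = 0) fun x hx => by
    obtain ⟨i, hi⟩ := hL.cover x hx
    by_cases h : Nz (s i) x
    · refine .inr ?_
      filter_upwards [h.gen (sec_hol hs hx hi), gen_of_nhds (key x hx i hi)] with y h1 h2
      exact fun e => h1 (h2.1 e)
    · refine .inl (gen_of_nhds ?_)
      filter_upwards [not_not.1 h, key x hx i hi] with y h1 h2 using h2.2 h1
  rcases this with k | k
  · obtain ⟨z, h1, h2, h3⟩ := ((h.gen (sec_hol hs hx hi)).and ((gen_iff.1 k x hx).and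
      (gen_of_nhds (key x hx i hi)))).exists
    exact (h1 (h3.1 h2)).elim
  · refine nz_of_gen ?_
    filter_upwards [gen_iff.1 k y hy, gen_of_nhds (key y hy j hj)] with z h1 h2
    exact fun e => h1 (h2.2 e)

theorem jet0 (hJ : JET) (hA : G.PosB A) (hL : G.LB L) (hx : x ∈ G.F) {y : G.W} (hy : y ∈ G.F) :
    ∃ m₀ : ℕ, ∀ m, m₀ ≤ m → ∃ s, G.Sec (L.mul (A.pow m)) s ∧
      (∀ i, x ∈ (L.mul (A.pow m)).U i → s i x ≠ 0) ∧
      (y ≠ x → ∀ j, y ∈ (L.mul (A.pow m)).U j → s j y = 0) := by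
  obtain ⟨m₀, h⟩ := hJ n N G A L hA hL x hx y hy 0
  refine ⟨m₀, fun m hm => ?_⟩
  have hB := lb_mul hL (lb_pow hA.choose_spec.1 m)
  obtain ⟨i, hi⟩ := hB.cover x hx
  obtain ⟨s, h1, h2, h3⟩ := h m hm i hi _ (hol_const 1)
  refine ⟨s, h1, sec_ne hB h1 hx hi fun e => ?_, h3⟩
  have he := at_chartAt (n := n) x
  have := ((h2 _ he).def (c := 1 / 2) (by norm_num)).self_of_nhds
  rw [OpenPartialHomeomorph.left_inv _ he.2, e] at this
  norm_num at this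

/-- sections which do not vanish at two given points -/
theorem two (hJ : JET) (hA : G.PosB A) (hL : G.LB L) (hx : x ∈ G.F) {y : G.W} (hy : y ∈ G.F) :
    ∃ m₀ : ℕ, ∀ m, m₀ ≤ m → ∃ s, G.Sec (L.mul (A.pow m)) s ∧
      (∀ i, x ∈ (L.mul (A.pow m)).U i → s i x ≠ 0) ∧
      ∀ i, y ∈ (L.mul (A.pow m)).U i → s i y ≠ 0 := by
  obtain ⟨m₁, h1⟩ := jet0 hJ hA hL hx hy
  obtain ⟨m₂, h2⟩ := jet0 hJ hA hL hy hx
  refine ⟨max m₁ m₂, fun m hm => ?_⟩
  obtain ⟨s, a1, a2, a3⟩ := h1 m (le_of_max_le_left hm)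
  obtain ⟨s', b1, b2, b3⟩ := h2 m (le_of_max_le_right hm)
  by_cases e : y = x
  · exact ⟨s, a1, a2, e ▸ a2⟩
  · refine ⟨_, sec_add a1 b1, fun i hi => ?_, fun i hi => ?_⟩
    · simpa [b3 (Ne.symm e) i hi] using a2 i hi
    · simpa [a3 e i hi] using b2 i hi

/-- `R v y`: the function `v` is a local equation at `y` -/
structure Eqs (G : Geo n N) (R : (G.W → ℂ) → G.W → Prop) : Prop where
  ex : ∀ x ∈ G.F, ∃ v, ∀ᶠ y in 𝓝 x, R v y
  hol : ∀ v y, R v y → Hol n v y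
  nz : ∀ v y, R v y → Nz v y
  dvd : ∀ v v' y, R v y → R v' y → Dvd n v v' y

open Classical in
/-- the line bundle of a family of local equations -/
def eqB (n : ℕ) {W : Type} [TopologicalSpace W] [ChartedSpace (Cm n) W]
    (R : (W → ℂ) → W → Prop) : Bd W :=
  ⟨W → ℂ, fun v => {y | ∀ᶠ z in 𝓝 y, R v z}, fun v v' y => if h : Dvd n v' v y then h.choose y else 1⟩

variable {R : (G.W → ℂ) → G.W → Prop}

theorem Eqs.g_eq (h : Eqs G R) {v v' c : G.W → ℂ} {y : G.W} (h1 : R v' y) (hc : Hol n c y)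
    (e : ∀ᶠ z in 𝓝 y, v z = c z * v' z) : (eqB n R).g v v' y = c y := by
  have k : Dvd n v' v y := ⟨c, hc, e⟩
  simp only [eqB, dif_pos k]
  refine (hol_cancel k.choose_spec.1 hc (h.hol _ _ h1) (h.nz _ _ h1) (gen_of_nhds ?_)).self_of_nhds
  filter_upwards [k.choose_spec.2, e] with z a1 a2 using a1.symm.trans a2

theorem Eqs.g_spec (h : Eqs G R) {v v' : G.W → ℂ} {y : G.W} (h1 : y ∈ (eqB n R).U v)
    (h2 : y ∈ (eqB n R).U v') : Hol n ((eqB n R).g v v') y ∧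
      ∀ᶠ z in 𝓝 y, v z = (eqB n R).g v v' z * v' z := by
  obtain ⟨c, hc, e⟩ := h.dvd v' v y h2.self_of_nhds h1.self_of_nhds
  have k : ∀ᶠ z in 𝓝 y, c z = (eqB n R).g v v' z := by
    filter_upwards [h2, hc.near, e.eventually_nhds] with z a1 a2 a3 using (h.g_eq a1 a2 a3).symm
  exact ⟨hc.congr k, by filter_upwards [k, e] with z a1 a2 using a1 ▸ a2⟩

theorem Eqs.lb (h : Eqs G R) : G.LB (eqB n R) := by
  have co : ∀ i j k x, x ∈ (eqB n R).U i → x ∈ (eqB n R).U j → x ∈ (eqB n R).U k →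
      (eqB n R).g i j x * (eqB n R).g j k x = (eqB n R).g i k x := fun i j k x hi hj hk => by
    obtain ⟨a1, a2⟩ := h.g_spec hi hj
    obtain ⟨b1, b2⟩ := h.g_spec hj hk
    refine (h.g_eq hk.self_of_nhds (hol_mul a1 b1) ?_).symm
    filter_upwards [a2, b2] with z c1 c2 using by rw [c1, c2, mul_assoc]
  refine ⟨fun _ => isOpen_setOf_eventually_nhds, h.ex, fun i j x hi hj => (h.g_spec hi hj).1,
    fun i j x hi hj e => ?_, co⟩
  have k := co i j i x hi hj hi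
  rw [e, zero_mul, h.g_eq hi.self_of_nhds (hol_const 1) (.of_forall fun _ => (one_mul _).symm)] at k
  exact zero_ne_one k

end geo

variable {n N : ℕ} {K : Type} [Field K] [Algebra ℂ K] {M : Mdl n N K}

/-- quotients of sections -/
theorem quo {L : Bd M.W} {s s' : L.ι → M.W → ℂ} (hL : M.LB L) (hs : M.Sec L s) (hs' : M.Sec L s')
    {x : M.W} (hx : x ∈ M.F) {i : L.ι} (hi : x ∈ L.U i) (h0 : Nz (s' i) x) :
    ∃ f : K, ∀ (x : M.F) i, (x : M.W) ∈ L.U i →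
      ∀ᶠ y in gen {(x : M.W)}, M.val f y = s i y / s' i y := by
  classical
  let a : M.W → ℂ := fun y => if h : ∃ i, y ∈ L.U i then s h.choose y / s' h.choose y else 0
  have key : ∀ x ∈ M.F, ∀ i, x ∈ L.U i → ∀ᶠ y in 𝓝 x, s i y / s' i y = a y := fun x hx i hi => by
    filter_upwards [sec_near hL hs hx hi, sec_near hL hs' hx hi] with y h1 h2
    have k : ∃ i, y ∈ L.U i := ⟨i, h1.1⟩
    simp only [a, dif_pos k]
    rw [h1.2.2 _ k.choose_spec, h2.2.2 _ k.choose_spec,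
      mul_div_mul_left _ _ (hL.ne_zero _ _ _ k.choose_spec h1.1)]
  obtain ⟨f, hf⟩ := M.surj a fun y hy => by
    obtain ⟨j, hj⟩ := hL.cover y hy
    exact mer_congr (mer_div (mer_of_hol (sec_hol hs hy hj)) (mer_of_hol (sec_hol hs' hy hj)))
      (gen_of_nhds (key y hy j hj))
  refine ⟨f, fun y j hj => ?_⟩
  filter_upwards [M.at_pt hf y, gen_of_nhds (key y y.2 j hj)] with z h1 h2 using h1.trans h2.symm

/-- equations at two points -/
theorem eqn (hJ : JET) (hP : M.Proj) {R : (M.W → ℂ) → M.W → Prop} (hR : Eqs M.toGeo R)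
    (x x' : M.F) : ∃ t : K, ∀ z : M.F, z = x ∨ z = x' → ∀ v, (∀ᶠ y in 𝓝 (z : M.W), R v y) →
      t ∈ M.O z ∧ ∃ u : M.W → ℂ, Hol n u (z : M.W) ∧ u z ≠ 0 ∧
        ∀ᶠ y in 𝓝 (z : M.W), M.val t y = u y * v y := by
  obtain ⟨A, hA⟩ := (M.toGeo.proj_iff).1 hP
  have hA' := hA.choose_spec.1
  obtain ⟨m₁, h1⟩ := two hJ hA (lb_triv M.toGeo) x.2 x'.2
  obtain ⟨m₂, h2⟩ := two hJ hA hR.lb x.2 x'.2
  obtain ⟨m, hm1, hm2⟩ : ∃ m, m₁ ≤ m ∧ m₂ ≤ m := ⟨_, le_max_left m₁ m₂, le_max_right m₁ m₂⟩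
  obtain ⟨σ, a1, a2, a3⟩ := h1 m hm1
  obtain ⟨τ, b1, b2, b3⟩ := h2 m hm2
  have hB := lb_mul hR.lb (lb_pow hA' m)
  have hs : M.Sec ((eqB n R).mul (A.pow m)) fun i y => i.1 y * σ ((), i.2) y := by
    filter_upwards [a1] with y hy i hi
    have k := hy ((), i.2) ⟨trivial, hi.2⟩
    refine ⟨hol_mul (hR.hol _ _ hi.1.self_of_nhds) k.1, fun j hj => ?_⟩
    rw [k.2 ((), j.2) ⟨trivial, hj.2⟩, (hR.g_spec hi.1 hj.1).2.self_of_nhds]
    simp only [Bd.mul, triv]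
    ring
  obtain ⟨i, hi⟩ := hB.cover x x.2
  obtain ⟨t, ht⟩ := quo hB hs b1 x.2 hi (nz_of_ne (b2 i hi))
  refine ⟨t, fun z hz v hv => ?_⟩
  obtain ⟨a, ha⟩ := hA'.cover z z.2
  have c1 : σ ((), a) z ≠ 0 := by
    rcases hz with rfl | rfl
    exacts [a2 ((), a) ⟨trivial, ha⟩, a3 ((), a) ⟨trivial, ha⟩]
  have c2 : τ (v, a) z ≠ 0 := by
    rcases hz with rfl | rfl
    exacts [b2 (v, a) ⟨hv, ha⟩, b3 (v, a) ⟨hv, ha⟩]
  have hu : Hol n (fun y => σ ((), a) y / τ (v, a) y) z :=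
    hol_div (a1.self_of_nhdsSet _ z.2 ((), a) ⟨trivial, ha⟩).1
      (b1.self_of_nhdsSet _ z.2 (v, a) ⟨hv, ha⟩).1 c2
  have e : ∀ᶠ y in gen {(z : M.W)}, M.val t y = σ ((), a) y / τ (v, a) y * v y :=
    (ht z (v, a) ⟨hv, ha⟩).mono fun y hy => by rw [hy]; ring
  have hw := hol_mul hu (hR.hol v _ hv.self_of_nhds)
  exact ⟨M.mem_O_of hw e, _, hu, div_ne_zero c1 c2, M.val_eq z.2 hw e⟩

end Vale.Agent.P277Z.Lo
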