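import Vale.Agent.P277Z.Lo.Ufd
import Vale.Agent.P277Z.Bir.Defs

/-!
# P277Z, block LOC: prime divisors through a point
-/

set_option linter.all false

open scoped Manifold ContDiff Topology
open Set Filter
open Vale.Agent.P272.K (Cm Chart At)
open Vale.Agent.P297 (Place)
open Vale.Agent.P297Z

noncomputable section

namespace Vale.Agent.P277Z.Lo

section mfd

variable {n : ℕ} {W : Type} [TopologicalSpace W] [ChartedSpace (Cm n) W]
  [IsManifold 𝓘(ℂ, Cm n) ω W] {a r r' : W → ℂ} {y : W}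

variable (n) in
/-- `r` is a reduced equation at `y` of the set of the poles of `a` -/
def Rd (a r : W → ℂ) (y : W) : Prop :=
  Hol n r y ∧ Nz r y ∧ Red n r y ∧ ∃ v, Den n a v y ∧ ∀ᶠ z in 𝓝 y, (r z = 0 ↔ v z = 0)

theorem dvd_zero {u v : W → ℂ} (h : Dvd n u v y) : ∀ᶠ z in 𝓝 y, u z = 0 → v z = 0 :=
  let ⟨_, _, k⟩ := h
  k.mono fun z h1 h2 => by rw [h1, h2, mul_zero]

theorem rd_ex (h : Mer n a y) : ∃ r, ∀ᶠ z in 𝓝 y, Rd n a r z := by
  obtain ⟨v, hv⟩ := den_ex h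
  obtain ⟨h1, h2, -⟩ := hv.self_of_nhds
  obtain ⟨r, k, k1, k2, k3, k4⟩ := (luf n W y).red v h1 h2
  have r0 : Nz r y := fun e => h2 (by filter_upwards [e, dvd_zero k2] with z a1 a2 using a2 a1)
  have e : ∀ᶠ z in 𝓝 y, (r z = 0 ↔ v z = 0) := by
    filter_upwards [dvd_zero k2, dvd_zero k3] with z a1 a2
      using ⟨a1, fun e => eq_zero_of_pow_eq_zero (a2 e)⟩
  refine ⟨r, ?_⟩
  filter_upwards [hv, k1.near, r0.near k1, k4, e.eventually_nhds] with z a1 a2 a3 a4 a5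
    using ⟨a2, a3, a4, v, a1, a5⟩

theorem Rd.dvd (h : Rd n a r y) (h' : Rd n a r' y) : Dvd n r r' y := by
  obtain ⟨-, -, h3, v, h4, h5⟩ := h
  obtain ⟨k1, -, -, v', k4, k5⟩ := h'
  refine h3 r' k1 ?_
  filter_upwards [h5, k5, dvd_zero (h4.dvd k4)] with z a1 a2 a3 e using a2.2 (a3 (a1.1 e))

end mfd

variable {n N : ℕ} {K : Type} [Field K] [Algebra ℂ K] {M : Mdl n N K} {x y : M.F} {a b f t : K}
  {P Q : Place K}

theorem eqs_rd (M : Mdl n N K) (f : K) : Eqs M.toGeo (Rd n (M.val f)) :=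
  ⟨fun x hx => rd_ex (M.mer f x hx), fun _ _ h => h.1, fun _ _ h => h.2.1, fun _ _ _ => Rd.dvd⟩

theorem val_ne_of_inv (hf : f ∈ M.O x) (h0 : f ≠ 0) (h : f⁻¹ ∈ M.O x) : M.val f x ≠ 0 := fun e => by
  have := M.val_mul_at hf h
  rw [mul_inv_cancel₀ h0, M.val_one, e, zero_mul] at this
  exact one_ne_zero this

theorem gn_ne (h : M.Gn x P t) : t ≠ 0 := fun e => by simpa [e] using h.ord

theorem gn_nonneg (h : M.Gn x P t) (hf : f ∈ M.O x) : 0 ≤ P.ord f :=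
  Pl.ord_nonneg_of_mem P (h.le f hf)

theorem gn_pos (h : M.Gn x P t) (f0 : f ≠ 0) (k : f / t ∈ M.O x) : 0 < P.ord f := by
  have := gn_nonneg h k
  rw [Pl.ord_div P f0 (gn_ne h), h.ord] at this
  omega

theorem gn_van (h : M.Gn x P t) (hf : f ∈ M.O x) (k : 0 < P.ord f) : M.val f x = 0 := by
  have := M.val_mul_at (h.dvd f hf k) h.mem
  rwa [div_mul_cancel₀ _ (gn_ne h), h.van, mul_zero] at this

theorem gn_eq (h : M.Gn x P t) (hQ : M.Ct x Q)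
    (k : ∀ b ∈ M.O x, b ≠ 0 → P.ord b = 0 → Q.ord b = 0) : P = Q := by
  refine Pl.eq_of_le' fun f hf => ?_
  obtain ⟨b, hb, b0, h1, h2⟩ := h.loc f hf
  rw [show f = b * f * b⁻¹ by field_simp]
  exact mul_mem (hQ _ h2) ((Pl.ord_eq_zero_iff Q b0).1 (k b hb b0 h1)).2

theorem cop_ord (h : M.Gn x P t) (ha : a ∈ M.O x) (hb : b ∈ M.O x) (b0 : b ≠ 0)
    (hc : Cop n (M.val a) (M.val b) (x : M.W)) (h1 : 0 < P.ord a) (h2 : 0 < P.ord b) : False :=
  cop_ne hc (M.not_zero b0) h.mem (dvd_of_mem h.mem (gn_ne h) (h.dvd a ha h1))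
    (dvd_of_mem h.mem (gn_ne h) (h.dvd b hb h2)) h.van

variable (hJ : JET) (hP : M.Proj)
include hJ hP

theorem gn_of_prime {t : M.O x} (ht : Prime t) : ∃ P, M.Gn x P t := by
  obtain ⟨P, h1, h2, h3, h4⟩ := pl K (M.O x) (frac hJ hP x) (wf M x) t ht
  exact ⟨P, t.2, by_contra fun k => ht.not_unit ((M.isUnit_iff t).2 k), h1, h2, h3, h4⟩

theorem van (hf : f ∈ M.O x) (f0 : f ≠ 0) (h : M.val f x = 0) : ∃ P, M.On x P ∧ 0 < P.ord f := by
  haveI := wf M x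
  obtain ⟨t, ht, k⟩ := WfDvdMonoid.exists_irreducible_factor (a := (⟨f, hf⟩ : M.O x))
    (fun k => (M.isUnit_iff _).1 k h) fun e => f0 (congrArg Subtype.val e)
  obtain ⟨P, hP'⟩ := gn_of_prime hJ hP (prime_of hJ hP ht)
  exact ⟨P, ⟨_, hP'⟩, gn_pos hP' f0 ((dvd_iff (gn_ne hP')).1 k)⟩

theorem mem (h : ∀ P, M.On x P → 0 ≤ P.ord f) : f ∈ M.O x := by
  by_cases f0 : f = 0
  · exact f0 ▸ zero_mem _
  obtain ⟨b, b0, k⟩ := den hJ hP f x x
  obtain ⟨h1, h2, h3⟩ := k x (.inl rfl)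
  have : M.val b x ≠ 0 := fun e => by
    obtain ⟨P, ⟨t, ht⟩, h4⟩ := van hJ hP h1 b0 e
    refine cop_ord ht h2 h1 b0 h3.self_of_nhds ?_ h4
    have := h P ⟨t, ht⟩
    rw [Pl.ord_mul P b0 f0]
    omega
  rw [show f = b * f * b⁻¹ by field_simp]
  exact mul_mem h2 (M.inv_mem h1 this)

theorem cop_of (h : M.Gn x P t) (hb : b ∈ M.O x) (b0 : b ≠ 0) (k : P.ord b = 0) :
    ∀ᶠ y in 𝓝 (x : M.W), Cop n (M.val b) (M.val t) y := by
  obtain ⟨d, b', t', h1, h2, h3, e1, e2, hc⟩ := gcd hJ hP hb h.mem (gn_ne h)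
  have d0 : d ≠ 0 := left_ne_zero_of_mul (e1 ▸ b0)
  have t0 : t' ≠ 0 := right_ne_zero_of_mul (e2 ▸ gn_ne h)
  have a1 := Pl.ord_mul P d0 (right_ne_zero_of_mul (e1 ▸ b0) : b' ≠ 0)
  have a2 := Pl.ord_mul P d0 t0
  have a3 := gn_nonneg h h1
  have a4 := gn_nonneg h h2
  rw [← e1, k] at a1
  rw [← e2, h.ord] at a2
  have a5 := h.dvd t' h3 (by omega)
  rw [e2, show t' / (d * t') = d⁻¹ by field_simp] at a5
  filter_upwards [hc, Hol.near h1, hol_ne h1 (val_ne_of_inv h1 d0 a5),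
    ((M.nhds_mul h1 h2).and (M.nhds_mul h1 h3)).eventually_nhds] with y c1 c2 c3 c4
  exact cop_unit c1 c2 c3 (by rwa [← e1, ← e2] at c4)

theorem other (h : M.Gn x P t) (hQ : M.On x Q) (ne : Q ≠ P) : Q.ord t = 0 := by
  obtain ⟨s, hs⟩ := hQ
  by_contra k
  have k1 := gn_nonneg hs h.mem
  refine ne (gn_eq h hs.le fun b hb b0 e => by_contra fun k' => ?_).symm
  have k2 := gn_nonneg hs hb
  exact cop_ord hs hb h.mem (gn_ne h) (cop_of hJ hP h hb b0 e).self_of_nhds (by omega) (by omega)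

theorem exists_gn (hQ : M.Ct x Q) (ha : a ∈ M.O x) (a0 : a ≠ 0) (h : 0 < Q.ord a) :
    ∃ P t, M.Gn x P t ∧ 0 < Q.ord t ∧ 0 < P.ord a := by
  haveI := wf M x
  have key : ∀ a : M.O x, (a : K) ≠ 0 → 0 < Q.ord (a : K) →
      ∃ P t, M.Gn x P t ∧ 0 < Q.ord t ∧ 0 < P.ord (a : K) := fun a => by
    induction a using WfDvdMonoid.induction_on_irreducible with
    | zero => exact fun h => (h rfl).elim
    | unit u hu =>
      intro _ h
      rw [Pl.ord_unit Q (hQ _ u.2) (hQ _ (M.inv_mem u.2 ((M.isUnit_iff u).1 hu)))] at h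
      exact (lt_irrefl _ h).elim
    | mul a i a0 hi ih =>
      intro h0 h
      have a1 : (a : K) ≠ 0 := right_ne_zero_of_mul h0
      have i0 : (i : K) ≠ 0 := left_ne_zero_of_mul h0
      rw [Subalgebra.coe_mul] at h ⊢
      rw [Pl.ord_mul Q i0 a1] at h
      by_cases k : 0 < Q.ord (i : K)
      · obtain ⟨P, hP'⟩ := gn_of_prime hJ hP (prime_of hJ hP hi)
        have := gn_nonneg hP' a.2
        exact ⟨P, i, hP', k, by rw [Pl.ord_mul P i0 a1, hP'.ord]; omega⟩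
      · obtain ⟨P, t, h1, h2, h3⟩ := ih a1 (by omega)
        have := gn_nonneg h1 i.2
        exact ⟨P, t, h1, h2, by rw [Pl.ord_mul P i0 a1]; omega⟩
  exact key ⟨a, ha⟩ a0 h

theorem near (x : M.F) (P : Place K) : ∀ᶠ y in 𝓝 x, M.On y P → M.On x P := by
  by_contra h
  have hf : ∃ᶠ y in 𝓝 x, M.On y P := (not_eventually.1 h).mono fun y k => (Classical.not_imp.1 k).1
  have hc : M.Ct x P := fun f k =>
    let ⟨_, ⟨_, h1⟩, h2⟩ := (hf.and_eventually (M.O_near k)).exists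
    h1.le f h2
  obtain ⟨p, p0, p1⟩ := Pl.exists_ord_eq_one P
  obtain ⟨b, hb, b0, k⟩ := frac hJ hP x p
  have := Pl.ord_nonneg_of_mem P (hc b hb)
  obtain ⟨Q, t, h1, h2, -⟩ := exists_gn hJ hP hc k (mul_ne_zero b0 p0)
    (by rw [Pl.ord_mul P b0 p0]; omega)
  have e : Q = P := gn_eq h1 hc fun c c1 c0 c2 => by_contra fun c3 => by
    have c4 := Pl.ord_nonneg_of_mem P (hc c c1)
    obtain ⟨y, ⟨s, hs⟩, a1, a2, a3⟩ := (hf.and_eventually ((M.O_near c1).and ((M.O_near h1.mem).and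
      (continuousAt_subtype_val.eventually (cop_of hJ hP h1 c1 c0 c2))))).exists
    exact cop_ord hs a1 a2 (gn_ne h1) a3 (by omega) h2
  exact h (.of_forall fun _ _ => ⟨t, e ▸ h1⟩)

theorem red (h : M.Gn x P t) : Red n (M.val t) (x : M.W) := by
  obtain ⟨ρ, hρ⟩ := eqn hJ hP (eqs_rd M t⁻¹) x x
  obtain ⟨r, hr⟩ := (eqs_rd M t⁻¹).ex x x.2
  obtain ⟨h1, u, h2, h3, h4⟩ := hρ x (.inl rfl) r hr
  obtain ⟨k1, k2, k3, v, k4, k5⟩ := hr.self_of_nhds
  have t0 := gn_ne h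
  have hd : Den n (M.val t⁻¹) (M.val t) (x : M.W) := ⟨h.mem, M.not_zero t0, fun _ => 1, hol_const 1,
    fun b _ k => k.congr (.of_forall fun _ => mul_one _), by
      filter_upwards [M.at_pt (M.val_inv t) x, M.at_pt (M.val_ne t0) x] with z a1 a2
      rw [a1, inv_mul_cancel₀ a2]⟩
  have r1 : Red n (M.val ρ) (x : M.W) := red_unit k3 h2 h3 h4
  have r0 : ρ ≠ 0 := ne_of_nz (x := x) fun k => (Nz.mul h2 k1 (nz_of_ne h3) k2) (by
    filter_upwards [k, h4] with y a1 a2 using a2 ▸ a1)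
  have r2 : Dvd n (M.val ρ) (M.val t) (x : M.W) := r1 _ h.mem (by
    filter_upwards [h4, hol_ne h2 h3, k5, dvd_zero (k4.dvd hd)] with z a1 a2 a3 a4 e
    exact a4 (a3.1 ((mul_eq_zero.1 (a1 ▸ e)).resolve_left a2)))
  have r3 : M.val ρ x = 0 := by
    rw [h4.self_of_nhds, k5.self_of_nhds.2 ((dvd_zero (hd.dvd k4)).self_of_nhds h.van), mul_zero]
  have r4 : 0 < P.ord ρ := lt_of_le_of_ne (gn_nonneg h h1) fun e =>
    cop_ne (cop_of hJ hP h h1 r0 e.symm).self_of_nhds (M.not_zero t0) h1 (Dvd.refl _ _) r2 r3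
  have r5 := div_mem r0 r2
  refine red_unit r1 r5 (val_ne_of_inv r5 (div_ne_zero t0 r0) (inv_div t ρ ▸ h.dvd ρ h1 r4)) ?_
  simpa only [div_mul_cancel₀ t r0] using M.nhds_mul r5 h1

theorem copM : CopM M := fun x P t h b hb b0 k => by
  filter_upwards [cop_of hJ hP h hb b0 k, Nz.near (M.not_zero (gn_ne h)) h.mem, Hol.near h.mem,
    Hol.near hb] with w a1 a2 a3 a4 c hc c0 e
  by_cases c1 : Nz c w
  · obtain ⟨r, m, k1, k2, k3, k4⟩ := (luf n M.W w).red c hc c1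
    refine cop_ne a1 a2 k1 (k4.self_of_nhds _ a4 ?_) (k4.self_of_nhds _ a3 ?_)
      (eq_zero_of_pow_eq_zero ((dvd_zero k3).self_of_nhds c0))
    · filter_upwards [e, dvd_zero k2] with z b1 b2 b3 using (b1 (b2 b3)).2
    · filter_upwards [e, dvd_zero k2] with z b1 b2 b3 using (b1 (b2 b3)).1
  · exact a2 (by filter_upwards [e, not_not.1 c1] with z b1 b2 using (b1 b2).1)

end Vale.Agent.P277Z.Lo
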