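import Vale.Agent.P277Z.Lo.Sk
import Vale.Agent.P297Z.Surf.Ord

/-!
# P277Z, block LOC: the place of a prime element
-/

open Vale.Agent.P297 (Place)
open Vale.Agent.P297Z

noncomputable section

namespace Vale.Agent.P277Z.Lo

namespace PlA

variable {K : Type} [Field K] [Algebra ℂ K] {A : Subalgebra ℂ K} {t : A}

theorem ne0 {b : A} (hb : ¬ t ∣ b) : (b : K) ≠ 0 := fun h =>
  hb ((show b = 0 from Subtype.ext h) ▸ dvd_zero t)

/-- the localisation of `A` at the prime `t` -/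
def vr (hA : ∀ f : K, ∃ b ∈ A, b ≠ 0 ∧ b * f ∈ A) [WfDvdMonoid A] (ht : Prime t) :
    ValuationSubring K where
  carrier := {f | ∃ b : A, ¬ t ∣ b ∧ (b : K) * f ∈ A}
  mul_mem' := by
    rintro f g ⟨b, hb, hf⟩ ⟨c, hc, hg⟩
    refine ⟨b * c, fun h => (ht.dvd_or_dvd h).elim hb hc, ?_⟩
    convert A.mul_mem hf hg using 1
    push_cast
    ring
  one_mem' := ⟨1, ht.not_dvd_one, by simp⟩
  add_mem' := by
    rintro f g ⟨b, hb, hf⟩ ⟨c, hc, hg⟩
    refine ⟨b * c, fun h => (ht.dvd_or_dvd h).elim hb hc, ?_⟩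
    convert A.add_mem (A.mul_mem c.2 hf) (A.mul_mem b.2 hg) using 1
    push_cast
    ring
  zero_mem' := ⟨1, ht.not_dvd_one, by simp⟩
  neg_mem' := by
    rintro f ⟨b, hb, hf⟩
    exact ⟨b, hb, by simpa using hf⟩
  mem_or_inv_mem' f := by
    by_cases hf : f = 0
    · exact Or.inl ⟨1, ht.not_dvd_one, by simp [hf]⟩
    obtain ⟨b, hb, hb0, hc⟩ := hA f
    obtain ⟨m, b', hb', e1⟩ := WfDvdMonoid.max_power_factor (a₀ := (⟨b, hb⟩ : A))
      (fun h => hb0 (congrArg Subtype.val h)) ht.irreducible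
    obtain ⟨n, c', hc', e2⟩ := WfDvdMonoid.max_power_factor (a₀ := (⟨b * f, hc⟩ : A))
      (fun h => mul_ne_zero hb0 hf (congrArg Subtype.val h)) ht.irreducible
    have e3 : b = (t : K) ^ m * b' := congrArg Subtype.val e1
    have e4 : b * f = (t : K) ^ n * c' := congrArg Subtype.val e2
    have ht0 : (t : K) ≠ 0 := fun h => ht.ne_zero (Subtype.ext h)
    rw [e3] at e4
    obtain h | h := le_total m n <;> obtain ⟨k, rfl⟩ := Nat.exists_eq_add_of_le h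
    · refine Or.inl ⟨b', hb', ?_⟩
      have e5 : (b' : K) * f = (t : K) ^ k * c' :=
        mul_left_cancel₀ (pow_ne_zero m ht0) (by linear_combination e4)
      exact e5 ▸ A.mul_mem (A.pow_mem t.2 k) c'.2
    · refine Or.inr ⟨c', hc', ?_⟩
      have e5 : (c' : K) * f⁻¹ = (t : K) ^ k * b' := by
        rw [mul_inv_eq_iff_eq_mul₀ hf]
        exact mul_left_cancel₀ (pow_ne_zero n ht0) (by linear_combination -e4)
      exact e5 ▸ A.mul_mem (A.pow_mem t.2 k) b'.2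

variable (hA : ∀ f : K, ∃ b ∈ A, b ≠ 0 ∧ b * f ∈ A) [WfDvdMonoid A] (ht : Prime t)

theorem mem_of {f : K} (hf : f ∈ A) : f ∈ vr hA ht := ⟨1, ht.not_dvd_one, by simpa using hf⟩

theorem inv_mem {b : A} (hb : ¬ t ∣ b) : (b : K)⁻¹ ∈ vr hA ht :=
  ⟨b, hb, by rw [mul_inv_cancel₀ (ne0 hb)]; exact A.one_mem⟩

theorem unit {b : A} (hb : ¬ t ∣ b) : IsUnit (⟨b, mem_of hA ht b.2⟩ : vr hA ht) :=
  IsUnit.of_mul_eq_one ⟨_, inv_mem hA ht hb⟩ (Subtype.ext (mul_inv_cancel₀ (ne0 hb)))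

theorem assoc {x : vr hA ht} (hx : x ≠ 0) :
    ∃ n : ℕ, Associated ((⟨t, mem_of hA ht t.2⟩ : vr hA ht) ^ n) x := by
  obtain ⟨b, hb, hc⟩ := x.2
  obtain ⟨n, c, hc', e⟩ := WfDvdMonoid.max_power_factor (a₀ := (⟨b * x, hc⟩ : A))
    (fun h => mul_ne_zero (ne0 hb) (fun h' => hx (Subtype.ext h')) (congrArg Subtype.val h))
    ht.irreducible
  have e1 : (⟨t, mem_of hA ht t.2⟩ : vr hA ht) ^ n * ⟨c, mem_of hA ht c.2⟩ =
      x * ⟨b, mem_of hA ht b.2⟩ := Subtype.ext (by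
    have e2 : (b : K) * x = (t : K) ^ n * c := congrArg Subtype.val e
    simpa [mul_comm] using e2.symm)
  exact ⟨n, (associated_mul_unit_right _ _ (unit hA ht hc')).trans
    (e1 ▸ associated_mul_unit_left _ _ (unit hA ht hb))⟩

theorem not_unit : ¬ IsUnit (⟨t, mem_of hA ht t.2⟩ : vr hA ht) := fun h => by
  obtain ⟨y, hy⟩ := h.exists_right_inv
  obtain ⟨b, hb, hc⟩ := y.2
  have e : (t : K) * y = 1 := congrArg Subtype.val hy
  exact hb ⟨⟨_, hc⟩, Subtype.ext (show (b : K) = t * (b * y) by linear_combination -(b : K) * e)⟩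

theorem dvr : IsDiscreteValuationRing (vr hA ht) := by
  have h0 : (⟨t, mem_of hA ht t.2⟩ : vr hA ht) ≠ 0 := fun h =>
    ht.ne_zero (Subtype.ext (congrArg (fun x : vr hA ht => (x : K)) h))
  refine IsDiscreteValuationRing.ofHasUnitMulPowIrreducibleFactorization
    ⟨_, ⟨not_unit hA ht, fun x y e => ?_⟩, assoc hA ht⟩
  obtain ⟨_ | n, hn⟩ := assoc hA ht (left_ne_zero_of_mul (e ▸ h0 : x * y ≠ 0))
  · exact Or.inl (associated_one_iff_isUnit.1 (by simpa using hn.symm))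
  · obtain ⟨z, hz⟩ := (dvd_pow_self _ n.succ_ne_zero).trans hn.dvd
    refine Or.inr (IsUnit.of_mul_eq_one z (mul_left_cancel₀ h0 ?_))
    rw [mul_one, mul_left_comm, ← hz, mul_comm, ← e]

end PlA

open PlA in
theorem pl : StPl := by
  intro K _ _ A hA _ t ht
  let P : Place K := ⟨vr hA ht, dvr hA ht⟩
  have h0 : ∀ b : A, ¬ t ∣ b → P.ord b = 0 := fun b hb =>
    Pl.ord_unit P (mem_of hA ht b.2) (inv_mem hA ht hb)
  have ht0 : (t : K) ≠ 0 := fun h => ht.ne_zero (Subtype.ext h)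
  refine ⟨P, ?_, fun f hf => mem_of hA ht hf, fun f hf h1 => ?_, fun f ⟨b, hb, hf⟩ =>
    ⟨b, b.2, ne0 hb, h0 b hb, hf⟩⟩
  · obtain ⟨π, hπ, h1⟩ := Pl.exists_ord_eq_one P
    obtain ⟨n, u, hu⟩ := assoc hA ht (x := ⟨π, (Pl.ord_nonneg_iff P hπ).1 (by omega)⟩)
      fun h => hπ (congrArg Subtype.val h)
    have e : (t : K) ^ n * (u : vr hA ht) = π := congrArg Subtype.val hu
    have h2 : ((u : vr hA ht) : K) * (u⁻¹ : (vr hA ht)ˣ) = 1 := congrArg Subtype.val u.mul_inv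
    have h3 := Pl.ord_unit P (u : vr hA ht).2
      (eq_inv_of_mul_eq_one_right h2 ▸ ((u⁻¹ : (vr hA ht)ˣ) : vr hA ht).2)
    rw [← e, Pl.ord_mul P (pow_ne_zero n ht0) (left_ne_zero_of_mul_eq_one h2), Pl.ord_pow, h3,
      add_zero] at h1
    exact Int.eq_one_of_mul_eq_one_left (Pl.ord_nonneg_of_mem P (mem_of hA ht t.2)) h1
  · by_cases h2 : t ∣ ⟨f, hf⟩
    · obtain ⟨c, hc⟩ := h2
      have e : f = t * c := congrArg Subtype.val hc
      rw [e, mul_div_cancel_left₀ _ ht0]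
      exact c.2
    · exact absurd (h0 _ h2) h1.ne'

end Vale.Agent.P277Z.Lo
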