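import Vale.Agent.P277Z.Lo.Base
import Vale.Agent.P277Z.Spec2

/-!
# P277Z, block LOC: the rows
-/

set_option linter.all false

open scoped Manifold ContDiff Topology
open Set Filter
open Vale.Agent.P272.K (Cm Chart At)
open Vale.Agent.P297 (Place)

noncomputable section

namespace Vale.Agent.P277Z.Lo

/-- ROW CC: the open and closed subsets of a difference of analytic sets which come near `x` meet a
finite set -/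
def StCC : Prop :=
  ∀ (E : Type) [NormedAddCommGroup E] [NormedSpace ℂ E] [FiniteDimensional ℂ E] (ι : Type)
    [Fintype ι] (x : E) (h : ι → E → ℂ) (δ : E → ℂ), (∀ i, AnalyticAt ℂ (h i) x) →
    AnalyticAt ℂ δ x → ∀ V ∈ 𝓝 x, ∃ T : Set E, T.Finite ∧ ∀ᶠ y in 𝓝 x, ∀ U : Set E,
      (∀ z ∈ V, (∀ i, h i z = 0) → δ z ≠ 0 →
        ∀ᶠ w in 𝓝 z, (∀ i, h i w = 0) → δ w ≠ 0 → (w ∈ U ↔ z ∈ U)) →
      (∀ i, h i y = 0) → δ y ≠ 0 → y ∈ U →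
      ∃ p ∈ T, p ∈ V ∧ (∀ i, h i p = 0) ∧ δ p ≠ 0 ∧ p ∈ U

/-- ROW DV: the traces on an analytic set of the divisors of `t` which come near `x` meet a finite
set -/
def StDv : Prop :=
  ∀ (n : ℕ) (W : Type) [TopologicalSpace W] [ChartedSpace (Cm n) W] [IsManifold 𝓘(ℂ, Cm n) ω W]
    (ι : Type) [Fintype ι] (x : W) (h : ι → W → ℂ) (t : W → ℂ), (∀ i, Hol n (h i) x) →
    Hol n t x → Nz t x → ∀ V ∈ 𝓝 x, ∃ T : Set W, T.Finite ∧ ∀ᶠ y in 𝓝 x, ∀ U : Set W,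
      (∀ z ∈ V, (∀ i, h i z = 0) → ∃ e c : W → ℂ, Hol n e z ∧ Hol n c z ∧
        ∀ᶠ w in 𝓝 z, t w = e w * c w ∧ ((∀ i, h i w = 0) → (w ∈ U ↔ e w = 0))) →
      (∀ i, h i y = 0) → y ∈ U → ∃ p ∈ T, p ∈ V ∧ (∀ i, h i p = 0) ∧ p ∈ U

/-- ROW PL: the place of a prime element -/
def StPl : Prop :=
  ∀ (K : Type) [Field K] [Algebra ℂ K] (A : Subalgebra ℂ K),
    (∀ f : K, ∃ b ∈ A, b ≠ 0 ∧ b * f ∈ A) → WfDvdMonoid A → ∀ t : A, Prime t →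
    ∃ P : Place K, P.ord t = 1 ∧ (∀ f ∈ A, f ∈ P.ring) ∧ (∀ f ∈ A, 0 < P.ord f → f / t ∈ A) ∧
      ∀ f ∈ P.ring, ∃ b ∈ A, b ≠ 0 ∧ P.ord b = 0 ∧ b * f ∈ A

/-- ROW JAC -/
def StJac : Prop :=
  ∀ (n N : ℕ) (K : Type) [Field K] [Algebra ℂ K] (M : Mdl n N K),
    ∀ x t g, M.Coord x t → ∃ j, M.Jac g t j

/-- ROW CAN -/
def StCan : Prop :=
  ∀ (n N : ℕ) (K : Type) [Field K] [Algebra ℂ K] (M : Mdl n N K), (∀ x, ∃ t, M.Coord x t) →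
    (∀ f, {P | M.Pr P ∧ P.ord f ≠ 0}.Finite) →
    ∀ x t g j, M.Coord x t → M.Jac g t j → j ≠ 0 → ∃ κ, M.Can g κ

end Vale.Agent.P277Z.Lo
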