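import Vale.Agent.P277Z.Lo.Eqn
import Vale.Agent.P277Z.Lo.Pl

/-!
# P277Z, block LOC: denominators; the local rings are factorial
-/

set_option linter.all false

open scoped Manifold ContDiff Topology
open Set Filter
open Vale.Agent.P272.K (Cm Chart At)
open Vale.Agent.P297 (Place)
open Vale.Agent.P297Z

noncomputable section

namespace Vale.Agent.P277Z.Lo

section mfd

variable {n : ℕ} {W : Type} [TopologicalSpace W] [ChartedSpace (Cm n) W]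
  [IsManifold 𝓘(ℂ, Cm n) ω W] {a u v v' : W → ℂ} {y : W}

variable (n) in
/-- `v` is a smallest denominator of `a` at `y` -/
def Den (a v : W → ℂ) (y : W) : Prop :=
  Hol n v y ∧ Nz v y ∧ ∃ u, Hol n u y ∧ Cop n u v y ∧ ∀ᶠ z in gen {y}, a z * v z = u z

theorem den_ex (h : Mer n a y) : ∃ v, ∀ᶠ z in 𝓝 y, Den n a v z := by
  obtain ⟨u, v, h1, h2, h3, h4⟩ := h
  obtain ⟨d, u', v', k1, k2, k3, k4⟩ := (luf n W y).gcd u v h1 h2 h3
  have d0 : Nz d y := fun e => h3 (by filter_upwards [e, k4] with z a1 a2 using by simp [a2.2.1, a1])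
  have v0 : Nz v' y := fun e => h3 (by filter_upwards [e, k4] with z a1 a2 using by simp [a2.2.1, a1])
  have e : ∀ᶠ z in gen {y}, a z * v' z = u' z := by
    filter_upwards [h4, gen_of_nhds k4, d0.gen k1] with z a1 a2 a3
    refine mul_left_cancel₀ a3 ?_
    rw [← a2.1, ← a1, a2.2.1]; ring
  refine ⟨v', ?_⟩
  filter_upwards [k2.near, k3.near, v0.near k3, k4, gen_near e] with z a1 a2 a3 a4 a5
    using ⟨a2, a3, u', a1, a4.2.2, a5⟩

theorem Den.dvd_of (h : Den n a v y) (hv : Hol n v' y) (hu : Hol n u y)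
    (e : ∀ᶠ z in gen {y}, a z * v' z = u z) : Dvd n v v' y := by
  obtain ⟨h1, -, u', h2, h3, h4⟩ := h
  refine h3 v' hv ⟨u, hu, hol_eq_of_gen (hol_mul hv h2) (hol_mul hu h1) ?_⟩
  filter_upwards [e, h4] with z a1 a2 using by rw [← a1, ← a2]; ring

theorem Den.dvd (h : Den n a v y) (h' : Den n a v' y) : Dvd n v v' y :=
  let ⟨k1, _, _, k2, _, k4⟩ := h'
  h.dvd_of k1 k2 k4

theorem cop_unit {c a' b' : W → ℂ} (h : Cop n u v y) (hc : Hol n c y) (c0 : c y ≠ 0)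
    (e : ∀ᶠ z in 𝓝 y, a' z = c z * u z ∧ b' z = c z * v z) : Cop n a' b' y := by
  intro b hb ⟨d, hd, k⟩
  obtain ⟨d', hd', k'⟩ := h b hb ⟨d, hd, by
    filter_upwards [k, e, hol_ne hc c0] with z a1 a2 a3
    refine mul_left_cancel₀ a3 ?_
    rw [a2.1, a2.2] at a1
    linear_combination a1⟩
  refine ⟨_, hol_div hd' hc c0, ?_⟩
  filter_upwards [k', e, hol_ne hc c0] with z a1 a2 a3
  rw [a1, a2.2]; field_simp

/-- a common divisor of coprime germs does not vanish -/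
theorem cop_ne {r : W → ℂ} (h : Cop n u v y) (hv : Nz v y) (hr : Hol n r y) (h1 : Dvd n r u y)
    (h2 : Dvd n r v y) : r y ≠ 0 := fun r0 => by
  obtain ⟨u', a1, a2⟩ := h1
  obtain ⟨v', b1, b2⟩ := h2
  obtain ⟨c, c1, c2⟩ := h v' b1 ⟨u', a1, by
    filter_upwards [a2, b2] with z k1 k2 using by rw [k1, k2]; ring⟩
  have k : Hol n (fun z => 1 - c z * r z) y := hol_sub (hol_const 1) (hol_mul c1 hr)
  refine hv ?_
  filter_upwards [b2, c2, hol_ne k (by simp [r0])] with z k1 k2 k3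
  refine (mul_eq_zero.1 (?_ : (1 - c z * r z) * v z = 0)).resolve_left k3
  rw [k2] at k1
  linear_combination k1

theorem red_unit {c r t : W → ℂ} (h : Red n r y) (hc : Hol n c y) (c0 : c y ≠ 0)
    (e : ∀ᶠ z in 𝓝 y, t z = c z * r z) : Red n t y := by
  intro b hb k
  obtain ⟨d, hd, k'⟩ := h b hb (by
    filter_upwards [k, e] with z a1 a2 a3 using a1 (by rw [a2, a3, mul_zero]))
  refine ⟨_, hol_div hd hc c0, ?_⟩
  filter_upwards [k', e, hol_ne hc c0] with z a1 a2 a3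
  rw [a1, a2]; field_simp

end mfd

variable {n N : ℕ} {K : Type} [Field K] [Algebra ℂ K] {M : Mdl n N K} {x y : M.F} {a b f : K}

theorem eqs_den (M : Mdl n N K) (f : K) : Eqs M.toGeo (Den n (M.val f)) :=
  ⟨fun x hx => den_ex (M.mer f x hx), fun _ _ h => h.1, fun _ _ h => h.2.1, fun _ _ _ => Den.dvd⟩

theorem ne_of_nz (h : Nz (M.val f) (x : M.W)) : f ≠ 0 := fun e =>
  h (.of_forall fun y => by rw [e, M.val_zero])

theorem div_mem (hb : b ≠ 0) (h : Dvd n (M.val b) (M.val a) (x : M.W)) : a / b ∈ M.O x := by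
  obtain ⟨c, hc, e⟩ := h
  refine M.mem_O_of hc ?_
  filter_upwards [M.at_pt (M.val_div a b) x, M.at_pt (M.val_ne hb) x, gen_of_nhds e] with z h1 h2 h3
  rw [h1, h3, mul_div_cancel_right₀ _ h2]

theorem dvd_of_mem (hb : b ∈ M.O x) (h0 : b ≠ 0) (h : a / b ∈ M.O x) :
    Dvd n (M.val b) (M.val a) (x : M.W) :=
  ⟨_, h, by simpa only [div_mul_cancel₀ a h0] using M.nhds_mul h hb⟩

/-- denominators at two points -/
theorem den (hJ : JET) (hP : M.Proj) (f : K) (x x' : M.F) : ∃ b : K, b ≠ 0 ∧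
    ∀ z : M.F, z = x ∨ z = x' → b ∈ M.O z ∧ b * f ∈ M.O z ∧
      ∀ᶠ y in 𝓝 (z : M.W), Cop n (M.val (b * f)) (M.val b) y := by
  obtain ⟨b, hb⟩ := eqn hJ hP (eqs_den M f) x x'
  have key : ∀ z : M.F, z = x ∨ z = x' → b ≠ 0 ∧ b ∈ M.O z ∧ b * f ∈ M.O z ∧
      ∀ᶠ y in 𝓝 (z : M.W), Cop n (M.val (b * f)) (M.val b) y := fun z hz => by
    obtain ⟨v, hv⟩ := (eqs_den M f).ex z z.2
    obtain ⟨h1, c, h2, h3, h4⟩ := hb z hz v hv
    obtain ⟨k1, k2, u, k3, k4, k5⟩ := hv.self_of_nhds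
    have e : ∀ᶠ y in gen {(z : M.W)}, M.val (b * f) y = c y * u y := by
      filter_upwards [M.at_pt (M.val_mul b f) z, gen_of_nhds h4, k5] with y a1 a2 a3
      rw [a1, a2, ← a3]; ring
    refine ⟨ne_of_nz (x := z) fun k => (Nz.mul h2 k1 (nz_of_ne h3) k2) ?_, h1,
      M.mem_O_of (hol_mul h2 k3) e, ?_⟩
    · filter_upwards [k, h4] with y a1 a2 using a2 ▸ a1
    · filter_upwards [k4.near k3 k1 k2, h2.near, hol_ne h2 h3,
        ((M.val_eq z.2 (hol_mul h2 k3) e).and h4).eventually_nhds] with y a1 a2 a3 a4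
        using cop_unit a1 a2 a3 a4
  exact ⟨b, (key x (.inl rfl)).1, fun z hz => (key z hz).2⟩

theorem frac (hJ : JET) (hP : M.Proj) (x : M.F) (f : K) : ∃ b ∈ M.O x, b ≠ 0 ∧ b * f ∈ M.O x :=
  let ⟨b, h0, h⟩ := den hJ hP f x x
  ⟨b, (h x (.inl rfl)).1, h0, (h x (.inl rfl)).2.1⟩

theorem cop_dvd {c : K} (ha : a ∈ M.O x) (hb : b ∈ M.O x) (hc : c ∈ M.O x) (h0 : b ≠ 0)
    (h : Cop n (M.val a) (M.val b) (x : M.W)) (k : c * a / b ∈ M.O x) : c / b ∈ M.O x :=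
  div_mem h0 (h _ hc ((dvd_of_mem hb h0 k).congr (M.nhds_mul hc ha)))

/-- greatest common divisors -/
theorem gcd (hJ : JET) (hP : M.Proj) (ha : a ∈ M.O x) (hb : b ∈ M.O x) (h0 : b ≠ 0) :
    ∃ d a' b' : K, d ∈ M.O x ∧ a' ∈ M.O x ∧ b' ∈ M.O x ∧ a = d * a' ∧ b = d * b' ∧
      ∀ᶠ y in 𝓝 (x : M.W), Cop n (M.val a') (M.val b') y := by
  obtain ⟨c, c0, h⟩ := den hJ hP (a / b) x x
  obtain ⟨h1, h2, h3⟩ := h x (.inl rfl)
  refine ⟨b / c, c * (a / b), c, cop_dvd h2 h1 hb c0 h3.self_of_nhds ?_, h2, h1, ?_, ?_, h3⟩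
  · rwa [show b * (c * (a / b)) / c = a by field_simp]
  · field_simp
  · field_simp

theorem dvd_iff {a b : M.O x} (h0 : (b : K) ≠ 0) : b ∣ a ↔ (a : K) / b ∈ M.O x :=
  ⟨fun ⟨c, e⟩ => by rw [e, Subalgebra.coe_mul, mul_div_cancel_left₀ _ h0]; exact c.2,
    fun h => ⟨⟨_, h⟩, Subtype.ext (mul_div_cancel₀ _ h0).symm⟩⟩

theorem wf (M : Mdl n N K) (x : M.F) : WfDvdMonoid (M.O x) := by
  have he := at_chartAt (n := n) (x : M.W)
  refine ⟨Subrelation.wf (fun {a b} ⟨h0, c, hc, e⟩ => ?_)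
    (InvImage.wf (fun a : M.O x => gW (chartAt (Cm n) x.1) x.1 (M.val a)) wellFounded_dvdNotUnit)⟩
  refine ⟨(gW_ne_zero he a.2).2 (M.not_zero fun k => h0 (Subtype.ext k)), gW _ x.1 (M.val c),
    fun k => hc ((M.isUnit_iff c).2 ((isUnit_gW he c.2).1 k)), ?_⟩
  rw [← gW_mul he a.2 c.2, gW_eq_iff he b.2 (hol_mul a.2 c.2), e]
  exact M.nhds_mul a.2 c.2

theorem prime_of (hJ : JET) (hP : M.Proj) {p : M.O x} (hp : Irreducible p) : Prime p := by
  have p0 : (p : K) ≠ 0 := fun k => hp.ne_zero (Subtype.ext k)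
  refine ⟨hp.ne_zero, hp.not_isUnit, fun a b h => ?_⟩
  obtain ⟨d, a', p', h1, h2, h3, e1, e2, k⟩ := gcd hJ hP a.2 p.2 p0
  have d0 : d ≠ 0 := left_ne_zero_of_mul (e2 ▸ p0)
  have q0 : p' ≠ 0 := right_ne_zero_of_mul (e2 ▸ p0)
  rw [dvd_iff p0] at h ⊢
  rw [dvd_iff p0]
  rcases hp.isUnit_or_isUnit (a := ⟨d, h1⟩) (b := ⟨p', h3⟩) (Subtype.ext e2) with u | u
  · have := cop_dvd h2 h3 b.2 q0 k.self_of_nhds (by
      rwa [Subalgebra.coe_mul, e1, e2, show d * a' * b / (d * p') = b * a' / p' by field_simp] at h)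
    refine .inr ?_
    rw [e2, show (b : K) / (d * p') = b / p' * d⁻¹ by field_simp]
    exact mul_mem this (M.inv_mem h1 ((M.isUnit_iff _).1 u))
  · refine .inl ?_
    rw [e1, e2, show d * a' / (d * p') = a' * p'⁻¹ by field_simp]
    exact mul_mem h2 (M.inv_mem h3 ((M.isUnit_iff _).1 u))

theorem ufd (hJ : JET) (hP : M.Proj) (x : M.F) : UniqueFactorizationMonoid (M.O x) :=
  { wf M x with irreducible_iff_prime := ⟨prime_of hJ hP, Prime.irreducible⟩ }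

theorem ctr (hJ : JET) (hP : M.Proj) {Q : Place K} (hQ : M.Ct x Q) (y : M.F) (hf : f ∈ M.O x) :
    ∃ b ∈ M.O y, b ≠ 0 ∧ Q.ord b = 0 ∧ b * f ∈ M.O y := by
  obtain ⟨b, h0, h⟩ := den hJ hP f x y
  obtain ⟨a1, a2, a3⟩ := h x (.inl rfl)
  refine ⟨b, (h y (.inr rfl)).1, h0, Pl.ord_unit Q (hQ b a1) (hQ _ ?_), (h y (.inr rfl)).2.1⟩
  simpa using cop_dvd a2 a1 (one_mem _) h0 a3.self_of_nhds
    (by rwa [one_mul, mul_div_cancel_left₀ _ h0])

end Vale.Agent.P277Z.Lo
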